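import Vale.Agent.P057.R2.H133.Level

/-!
# P057 : lower bounds for progressions with at least five terms, asymptotics
-/

set_option linter.all false

open Finset Filter

namespace Vale.Agent.P057.R2.H133

open Vale.Agent.P057.Lower

/-- choice of the dimension and of the size of the primes -/
theorem choose_dm' (s D : ℕ) (hs : 1 ≤ s) (l y : ℝ) (hl0 : 0 < l) (e6 : 1 ≤ y) (W : ℕ)
    (hW1 : 1 ≤ W) (hypow : y ^ (s + 1) = Real.log W)
    (e1 : (l * y + 1) ^ 2 ≤ Real.exp (y / (l + 1))) :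
    ∃ d m : ℕ, 1 ≤ d ∧ l * y ≤ (d : ℝ) ∧ (d : ℝ) ≤ l * y + 1 ∧ d ^ 2 ≤ m ∧ 1 ≤ m ∧ 2 ^ D * W ≤ m ^ d ∧
      Real.exp (y / (l + 1)) ≤ m ∧ Real.log m ≤ Real.log 2 + (y ^ s / l + D * Real.log 2) := by
  have hy0 : 0 < y := by linarith only [e6]
  refine ⟨⌈l * y⌉₊, ⌈Real.exp ((Real.log W + D * Real.log 2) / ⌈l * y⌉₊)⌉₊, ?_⟩
  have hd1 : (l * y : ℝ) ≤ ⌈l * y⌉₊ := Nat.le_ceil _
  have hd2 : (⌈l * y⌉₊ : ℝ) ≤ l * y + 1 := (Nat.ceil_lt_add_one (by positivity)).le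
  have hdpos : 0 < ⌈l * y⌉₊ := Nat.ceil_pos.2 (by positivity)
  generalize ⌈l * y⌉₊ = d at hd1 hd2 hdpos ⊢
  have hdR : (0 : ℝ) < d := by exact_mod_cast hdpos
  have hd3 : (1 : ℝ) ≤ d := by exact_mod_cast hdpos
  obtain ⟨hz1, hz2⟩ := z_bounds s D hs l y _ d hl0 e6 hypow hd1 hd2 hd3
  have h1 : (Real.exp ((Real.log W + D * Real.log 2) / d)) ^ d = 2 ^ D * W := by
    rw [← Real.exp_nat_mul]
    have e : (d : ℝ) * ((Real.log W + D * Real.log 2) / d) = D * Real.log 2 + Real.log W := by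
      field_simp
      ring
    rw [e, Real.exp_add, Real.exp_log (by exact_mod_cast hW1), mul_comm (D : ℝ),
      Real.exp_mul, Real.exp_log (by norm_num), Real.rpow_natCast]
  generalize (Real.log W + D * Real.log 2) / d = z at hz1 hz2 h1 ⊢
  have hz0 : 0 ≤ z := le_trans (by positivity) hz1
  have hm1 : Real.exp z ≤ ⌈Real.exp z⌉₊ := Nat.le_ceil _
  have hm2 : (⌈Real.exp z⌉₊ : ℝ) ≤ 2 * Real.exp z := by
    have h1 := (Nat.ceil_lt_add_one (Real.exp_pos z).le).le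
    have h2 : 1 ≤ Real.exp z := Real.one_le_exp hz0
    linarith only [h1, h2]
  have hmpos : 0 < ⌈Real.exp z⌉₊ := Nat.ceil_pos.2 (Real.exp_pos z)
  generalize ⌈Real.exp z⌉₊ = m at hm1 hm2 hmpos ⊢
  have hmR : (0 : ℝ) < m := by exact_mod_cast hmpos
  have hexpz : Real.exp (y / (l + 1)) ≤ Real.exp z := Real.exp_le_exp.2 hz1
  refine ⟨hdpos, hd1, hd2, ?_, hmpos, ?_, hexpz.trans hm1, ?_⟩
  · have : (d : ℝ) ^ 2 ≤ m := by
      refine le_trans ?_ (e1.trans (hexpz.trans hm1))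
      exact pow_le_pow_left₀ hdR.le hd2 2
    exact_mod_cast this
  · have h2 : (2 : ℝ) ^ D * W ≤ (m : ℝ) ^ d := by
      rw [← h1]
      exact pow_le_pow_left₀ (Real.exp_pos z).le hm1 d
    exact_mod_cast h2
  · have h3 : Real.log m ≤ Real.log 2 + z := by
      refine (Real.log_le_log hmR hm2).trans (le_of_eq ?_)
      rw [Real.log_mul (by norm_num) (Real.exp_pos z).ne', Real.log_exp]
    linarith only [hz2, h3]

/-- the optimisation in the dimension, abstractly -/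
theorem step_asym' (s : ℕ) (hs : 1 ≤ s) (c G : ℝ) (hc : 0 < c) (hG : 0 < G) (D : ℕ)
    (T1 T2 : ℕ → ℝ → Prop) (mono : ∀ W x y, T1 W x → y ≤ x → T1 W y)
    (H1 : ∀ η : ℝ, 0 < η → ∃ m0 : ℕ, ∀ m : ℕ, m0 ≤ m → ∀ d : ℕ, m0 ≤ d → d ^ 2 ≤ m →
      ∀ W : ℕ, 2 ^ D * W ≤ m ^ d → ∀ x : ℝ, T2 (128 * d * m ^ 2 + 1) x →
        T1 W (Real.exp (-((c + η) * d)) * (x / 2)))
    (H2 : ∀ ε : ℝ, 0 < ε → ∃ N0 : ℕ, ∀ N : ℕ, N0 ≤ N →
      T2 N (Real.exp (-((1 + ε) * s * (G * Real.log N) ^ ((1 : ℝ) / s)))))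
    (ε : ℝ) (hε : 0 < ε) : ∃ N0 : ℕ, ∀ W : ℕ, N0 ≤ W →
      T1 W (Real.exp (-((1 + ε) * ((s + 1 : ℕ) : ℝ) *
        (2 * c * G * Real.log W) ^ ((1 : ℝ) / ((s + 1 : ℕ) : ℝ))))) := by
  obtain ⟨δ, hδ, hδ1, hδε⟩ : ∃ δ : ℝ, 0 < δ ∧ δ ≤ 1 ∧ 4 * δ ≤ ε := by
    refine ⟨min 1 (ε / 4), by positivity, min_le_left _ _, ?_⟩
    have := min_le_right 1 (ε / 4)
    linarith only [this]
  obtain ⟨μ, hμ⟩ : ∃ μ : ℝ, μ = (2 * c * G) ^ ((1 : ℝ) / ((s + 1 : ℕ) : ℝ)) := ⟨_, rfl⟩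
  have hμ0 : 0 < μ := by rw [hμ]; positivity
  have hμpow : μ ^ (s + 1) = 2 * c * G := by
    rw [hμ, one_div]
    exact Real.rpow_inv_natCast_pow (by positivity) (by omega)
  have hl0 : 0 < μ / c := by positivity
  obtain ⟨m0, hm0⟩ := H1 (c * δ) (by positivity)
  obtain ⟨N0, hN0⟩ := H2 δ hδ
  have ev1 := ev_exp_ge (μ / c + 1) (μ / c) (by positivity) hl0
  have ev2 := ev_exp_const (μ / c + 1) (m0 : ℝ) (by positivity)
  have ev3 := ev_exp_const (μ / c + 1) (N0 : ℝ) (by positivity)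
  have ev4 := ev_log_le (Real.log 129 + 2 * (D + 1) * Real.log 2) (μ / c) (2 * δ / (μ / c)) hl0
    (by positivity)
  have ev5 : ∀ᶠ y : ℝ in atTop, ((1 + δ) * c + Real.log 2) ≤ δ * μ * y :=
    (tendsto_id.const_mul_atTop (by positivity : 0 < δ * μ)).eventually_ge_atTop _
  have ev7 : ∀ᶠ y : ℝ in atTop, (m0 : ℝ) ≤ (μ / c) * y :=
    (tendsto_id.const_mul_atTop hl0).eventually_ge_atTop _
  have evall := (tendsto_y s).eventually (ev1.and (ev2.and (ev3.and (ev4.and (ev5.and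
    ((eventually_ge_atTop (1 : ℝ)).and ev7))))))
  obtain ⟨W0, hW0⟩ := eventually_atTop.1 evall
  refine ⟨max W0 1, fun W hW => ?_⟩
  have hWW0 : W0 ≤ W := le_trans (le_max_left _ _) hW
  have hW1 : 1 ≤ W := le_trans (le_max_right _ _) hW
  have hlogW : 0 ≤ Real.log W := Real.log_natCast_nonneg W
  have hypow : ((Real.log W) ^ ((1 : ℝ) / ((s : ℝ) + 1))) ^ (s + 1) = Real.log W := by
    have := Real.rpow_inv_natCast_pow hlogW (n := s + 1) (by omega)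
    rw [one_div]
    push_cast at this
    exact this
  have hμy : (2 * c * G * Real.log W) ^ ((1 : ℝ) / ((s + 1 : ℕ) : ℝ)) =
      μ * (Real.log W) ^ ((1 : ℝ) / ((s : ℝ) + 1)) := by
    rw [Real.mul_rpow (by positivity) hlogW, hμ]
    push_cast
    rfl
  rw [hμy]
  obtain ⟨e1, e2, e3, e4, e5, e6, e7⟩ := hW0 W hWW0
  generalize (Real.log W) ^ ((1 : ℝ) / ((s : ℝ) + 1)) = y at hypow e1 e2 e3 e4 e5 e6 e7 ⊢
  obtain ⟨d, m, hd1, hdl, hd2, hdm, hm1, hWm, hem, hlogm⟩ :=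
    choose_dm' s D hs (μ / c) y hl0 e6 W hW1 hypow e1
  have hd0 : m0 ≤ d := by exact_mod_cast (e7.trans hdl)
  have hmm0 : m0 ≤ m := by exact_mod_cast (e2.trans hem)
  have hmN0 : N0 ≤ m := by exact_mod_cast (e3.trans hem)
  have hLN0 : N0 ≤ 128 * d * m ^ 2 + 1 := by
    refine hmN0.trans ?_
    nlinarith only [hd1, hm1]
  have hT := hm0 m hmm0 d hd0 hdm W hWm _ (hN0 _ hLN0)
  refine mono _ _ _ hT ?_
  have hlogL := logL_bound s D hs (μ / c) y δ hl0 hδ e6 d m hd1 hd2 hm1 hlogm e4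
  have hlogL0 : 0 ≤ Real.log ((128 * d * m ^ 2 + 1 : ℕ) : ℝ) := Real.log_natCast_nonneg _
  have hroot := root_bound s hs c G μ y δ _ hc hG hμ0 hμpow hδ (by linarith only [e6]) hlogL0 hlogL
  generalize (G * Real.log ((128 * d * m ^ 2 + 1 : ℕ) : ℝ)) ^ ((1 : ℝ) / s) = X at hroot ⊢
  have hexp2 : Real.exp (-((c + c * δ) * d)) * (Real.exp (-((1 + δ) * s * X)) / 2) =
      Real.exp (-((c + c * δ) * d) - (1 + δ) * s * X - Real.log 2) := by
    rw [Real.exp_sub, sub_eq_add_neg, Real.exp_add, Real.exp_log (by norm_num)]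
    ring
  rw [hexp2]
  apply Real.exp_le_exp.2
  have := final_exp s c μ y δ ε d X hc hμ0 hδ hδ1 hδε (by linarith only [e6]) hd2 hroot e5
  linarith only [this]


/-- the polynomial loss is absorbed for large dimensions -/
theorem ev_poly (η : ℝ) (hη : 0 < η) : ∃ d0 : ℕ, ∀ d : ℕ, d0 ≤ d →
    Real.exp (-(η * d)) ≤ 1 / (2 * (d : ℝ) + 1) := by
  have h1 := (ev_exp_ge (1 / η) 1 (by positivity) one_pos).and (eventually_ge_atTop (2 : ℝ))
  have h2 := tendsto_natCast_atTop_atTop.eventually h1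
  obtain ⟨d0, hd0⟩ := eventually_atTop.1 h2
  refine ⟨d0, fun d hd => ?_⟩
  obtain ⟨h3, h4⟩ := hd0 d hd
  have e1 : (d : ℝ) / (1 / η) = η * d := by field_simp
  rw [e1] at h3
  have h5 : 2 * (d : ℝ) + 1 ≤ Real.exp (η * d) := by
    refine le_trans ?_ h3
    nlinarith
  rw [Real.exp_neg, inv_eq_one_div]
  exact one_div_le_one_div_of_le (by positivity) h5

/-- one level, for blocks with a certificate -/
theorem one_level5 (k : ℕ) (hk : 5 ≤ k) (c : ℝ) (e : ℤ → ℤ)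
    (hc : ∀ η : ℝ, 0 < η → ∃ m0 : ℕ, ∀ p : ℕ, m0 ≤ p → p.Prime →
      ∃ U : Finset ℤ, CBlk p U e ∧ (∀ u ∈ U, |u| ≤ p) ∧
        Real.exp (-(c + η)) ≤ (U.card : ℝ) / p) (η : ℝ)
    (hη : 0 < η) : ∃ m0 : ℕ, ∀ m : ℕ, m0 ≤ m → ∀ d : ℕ, m0 ≤ d → d ^ 2 ≤ m →
      ∀ W : ℕ, 2 ^ 1 * W ≤ m ^ d → ∀ x : ℝ, Dens k 2 (128 * d * m ^ 2 + 1) x →
        Dens k 1 W (Real.exp (-((c + η) * d)) * (x / 2)) := by
  classical
  obtain ⟨m1, hm1⟩ := hc (η / 2) (by positivity)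
  obtain ⟨d0, hd0⟩ := ev_poly (η / 2) (by positivity)
  refine ⟨max (max m1 d0) (10 ^ 6), fun m hm d hd' hdm W hW x hx => ?_⟩
  have hd : 1 ≤ d := le_trans (by norm_num) (le_trans (le_max_right _ _) hd')
  have hdd0 : d0 ≤ d := le_trans (le_max_right _ _) (le_trans (le_max_left _ _) hd')
  have hmm1 : m1 ≤ m := le_trans (le_max_left _ _) (le_trans (le_max_left _ _) hm)
  obtain ⟨P, hPc, hP⟩ := primes_exist m d (le_trans (le_max_right _ _) hm) hdm
  have hex : ∀ p : P, ∃ U : Finset ℤ, CBlk p U e ∧ (∀ u ∈ U, |u| ≤ (p : ℕ)) ∧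
      Real.exp (-(c + η / 2)) ≤ (U.card : ℝ) / (p : ℕ) := by
    intro p
    have := hP p p.2
    exact hm1 p (hmm1.trans this.2.1.le) this.1
  choose U hU hUabs hUcard using hex
  obtain ⟨B, hB, hBf, hBc⟩ := hx
  have hcop : Pairwise (Function.onFun Nat.Coprime (fun p : P => (p : ℕ))) := by
    intro p q hpq
    exact (Nat.coprime_primes (hP p p.2).1 (hP q q.2).1).2 (fun h => hpq (Subtype.ext h))
  have hprod : m ^ d ≤ ∏ p : P, (p : ℕ) := by
    rw [Finset.prod_coe_sort P (fun p => p), ← hPc]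
    exact Finset.pow_card_le_prod _ _ _ (fun p hp => (hP p hp).2.1.le)
  have hF : ∀ v : P → ℤ, (∀ i, v i ∈ U i) → ∑ i, (v i) ^ 2 < ((128 * d * m ^ 2 + 1 : ℕ) : ℤ) := by
    intro v hv
    have h1 : ∀ i : P, (v i) ^ 2 ≤ ((8 * m : ℕ) : ℤ) ^ 2 := by
      intro i
      rw [← sq_abs]
      apply pow_le_pow_left₀ (abs_nonneg _)
      refine (hUabs i _ (hv i)).trans ?_
      exact_mod_cast (hP i i.2).2.2
    have h2 : ∑ i, (v i) ^ 2 ≤ ∑ i : P, ((8 * m : ℕ) : ℤ) ^ 2 :=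
      Finset.sum_le_sum (fun i _ => h1 i)
    rw [Finset.sum_const, Finset.card_univ, Fintype.card_coe, hPc, nsmul_eq_mul] at h2
    push_cast at h2 ⊢
    have h3 : (0 : ℤ) ≤ d * m ^ 2 := by (clear * - hd; positivity)
    linarith only [h2, h3]
  have hW2 : 2 * W ≤ ∏ p : P, (p : ℕ) := by
    have : 2 ^ 1 * W = 2 * W := by ring
    rw [← this]
    exact hW.trans hprod
  obtain ⟨A, hA, hAf, hAc⟩ := level5 k hk (fun p : P => (p : ℕ)) hcop
    (fun p => (hP p p.2).1.pos) U e hU (128 * d * m ^ 2 + 1) (by (clear * - hd; positivity)) hF B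
    hB hBf W hW2
  refine ⟨A, hA, hAf, le_trans ?_ hAc⟩
  have h1 : Real.exp (-((c + η / 2) * d)) ≤ ∏ p : P, ((U p).card : ℝ) / (p : ℕ) := by
    have : Real.exp (-((c + η / 2) * d)) = ∏ _p : P, Real.exp (-(c + η / 2)) := by
      rw [Finset.prod_const, Finset.card_univ, Fintype.card_coe, hPc, ← Real.exp_nat_mul]
      congr 1
      ring
    rw [this]
    exact Finset.prod_le_prod (fun p _ => (Real.exp_pos _).le) (fun p _ => hUcard p)
  have hcP : (Fintype.card P : ℝ) = d := by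
    rw [Fintype.card_coe, hPc]
  have hL : (0 : ℝ) < ((128 * d * m ^ 2 + 1 : ℕ) : ℝ) := by (clear * - hd; positivity)
  have hdR : (0 : ℝ) < 2 * (d : ℝ) + 1 := by positivity
  have h2 : x / 2 * (1 / (2 * (d : ℝ) + 1)) ≤
      (B.card : ℝ) / (2 * (((128 * d * m ^ 2 + 1) * (2 * Fintype.card P + 1) : ℕ) : ℝ)) := by
    have e1 : (((128 * d * m ^ 2 + 1) * (2 * Fintype.card P + 1) : ℕ) : ℝ) =
        ((128 * d * m ^ 2 + 1 : ℕ) : ℝ) * (2 * (d : ℝ) + 1) := by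
      push_cast
      rw [hcP]
    rw [e1]
    have e2 : (B.card : ℝ) / (2 * (((128 * d * m ^ 2 + 1 : ℕ) : ℝ) * (2 * (d : ℝ) + 1))) =
        (B.card : ℝ) / ((128 * d * m ^ 2 + 1 : ℕ) : ℝ) / 2 * (1 / (2 * (d : ℝ) + 1)) := by
      field_simp
    rw [e2]
    apply mul_le_mul_of_nonneg_right _ (by positivity)
    apply div_le_div_of_nonneg_right _ (by norm_num)
    rw [le_div_iff₀ hL]
    linarith only [hBc]
  by_cases hx0 : 0 ≤ x
  · rw [mul_assoc]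
    apply mul_le_mul_of_nonneg_left _ (by (clear * -; positivity))
    calc Real.exp (-((c + η) * d)) * (x / 2)
        = Real.exp (-((c + η / 2) * d)) * (x / 2 * Real.exp (-(η / 2 * d))) := by
          have : -((c + η) * d) = -((c + η / 2) * d) + -(η / 2 * d) := by ring
          rw [this, Real.exp_add]
          ring
      _ ≤ Real.exp (-((c + η / 2) * d)) * (x / 2 * (1 / (2 * (d : ℝ) + 1))) := by
          apply mul_le_mul_of_nonneg_left _ (Real.exp_pos _).le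
          exact mul_le_mul_of_nonneg_left (hd0 d hdd0) (by positivity)
      _ ≤ Real.exp (-((c + η / 2) * d)) *
          ((B.card : ℝ) / (2 * (((128 * d * m ^ 2 + 1) * (2 * Fintype.card P + 1) : ℕ) : ℝ))) :=
          mul_le_mul_of_nonneg_left h2 (Real.exp_pos _).le
      _ ≤ _ := mul_le_mul_of_nonneg_right h1 (by positivity)
  · push Not at hx0
    have h3 : Real.exp (-((c + η) * d)) * (x / 2) ≤ 0 := by
      apply mul_nonpos_of_nonneg_of_nonpos (Real.exp_pos _).le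
      linarith
    have h4 : (W : ℝ) * (Real.exp (-((c + η) * d)) * (x / 2)) ≤ 0 :=
      mul_nonpos_of_nonneg_of_nonpos (by positivity) h3
    refine h4.trans ?_
    have : 0 ≤ ∏ p : P, ((U p).card : ℝ) / (p : ℕ) := Finset.prod_nonneg (fun p _ => by positivity)
    positivity

/-- the cost of the mixed block -/
theorem cost_mix (η : ℝ) (hη : 0 < η) : ∃ m0 : ℕ, ∀ p : ℕ, m0 ≤ p → p.Prime →
    ∃ U : Finset ℤ, CBlk p U (fun u => u % 2) ∧ (∀ u ∈ U, |u| ≤ p) ∧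
      Real.exp (-(Real.log (12 / 7) + η)) ≤ (U.card : ℝ) / p := by
  have hlt : Real.exp (-η) < 1 := Real.exp_lt_one_iff.2 (by linarith only [hη])
  obtain ⟨m0, hm0⟩ := eventually_div_le 2 (7 / 12 * (1 - Real.exp (-η))) (by linarith only [hlt])
  refine ⟨max m0 3, fun p hp hpp => ?_⟩
  have hp0 : 3 ≤ p := le_trans (le_max_right _ _) hp
  have hpm : m0 ≤ p := le_trans (le_max_left _ _) hp
  have hodd : p % 2 = 1 := hpp.eq_two_or_odd.resolve_left (by omega)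
  refine ⟨_, mix_blk hodd, fun u hu => mix_abs hu, ?_⟩
  have hpR : (0 : ℝ) < p := by
    have : 0 < p := by omega
    exact_mod_cast this
  have h1 := mix_card p
  have h4 := hm0 p hpm
  rw [div_le_iff₀ hpR] at h4
  have h5 : Real.exp (-(Real.log (12 / 7) + η)) = 7 / 12 * Real.exp (-η) := by
    rw [neg_add, Real.exp_add, Real.exp_neg, Real.exp_log (by norm_num)]
    norm_num
  rw [h5, le_div_iff₀ hpR]
  nlinarith only [h1, h4]

theorem step5 (k s : ℕ) (hk : 5 ≤ k) (hs : 1 ≤ s) (c G : ℝ) (hc : 0 < c)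
    (hG : 0 < G) (e : ℤ → ℤ)
    (hcost : ∀ η : ℝ, 0 < η → ∃ m0 : ℕ, ∀ p : ℕ, m0 ≤ p → p.Prime →
      ∃ U : Finset ℤ, CBlk p U e ∧ (∀ u ∈ U, |u| ≤ p) ∧
        Real.exp (-(c + η)) ≤ (U.card : ℝ) / p)
    (h : Asy k 2 s G) : Asy k 1 (s + 1) (2 * c * G) := by
  intro ε hε
  exact step_asym' s hs c G hc hG 1 (Dens k 1) (Dens k 2) (fun W x y h hxy => h.mono hxy)
    (fun η hη => one_level5 k hk c e hcost η hη) h ε hε

theorem asy_mix (k n : ℕ) (hn : 3 ≤ n) (hk5 : 5 ≤ k) (hk : 2 ^ (n - 1) < k) :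
    Asy k 1 n (2 ^ (n * (n - 1) / 2) * (Real.log 2) ^ (n - 2) * Real.log (12 / 7)) := by
  have h := asy_pow k n (by omega) hk (n - 2) (by omega)
  have e1 : n - 1 - (n - 2) = 1 := by omega
  have e2 : n - 2 + 1 = n - 1 := by omega
  rw [e1, e2] at h
  have hlog : 0 < Real.log 2 := Real.log_pos (by norm_num)
  have hlog9 : 0 < Real.log (12 / 7) := Real.log_pos (by norm_num)
  have hst := step5 k (n - 1) hk5 (by omega) (Real.log (12 / 7))
    (2 ^ (∑ j ∈ range (n - 2), (n - 1 - j)) * (Real.log 2) ^ (n - 2)) hlog9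
    (by positivity) (fun u => u % 2) cost_mix (by simpa only [pow_one] using h)
  have e3 : n - 1 + 1 = n := by omega
  rw [e3] at hst
  have hsum : n * (n - 1) / 2 = (∑ j ∈ range (n - 2), (n - 1 - j)) + 1 := by
    have h1 : ∑ j ∈ range (n - 1), (n - 1 - j) = (∑ j ∈ range (n - 2), (n - 1 - j)) + 1 := by
      rw [← e2, Finset.sum_range_succ]
      congr 1
      omega
    rw [← h1]
    have h2 : ∑ j ∈ range (n - 1), (n - 1 - j) = ∑ j ∈ range n, j := by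
      have h3 := Finset.sum_range_reflect (fun j => j) n
      rw [← h3]
      have h4 : n = (n - 1) + 1 := by omega
      conv_rhs => rw [h4, Finset.sum_range_succ]
      simp only [add_tsub_cancel_right, tsub_self, add_zero]
    rw [h2, Finset.sum_range_id]
  have e4 : 2 * Real.log (12 / 7) * (2 ^ (∑ j ∈ range (n - 2), (n - 1 - j)) *
      (Real.log 2) ^ (n - 2)) =
      2 ^ (n * (n - 1) / 2) * (Real.log 2) ^ (n - 2) * Real.log (12 / 7) := by
    rw [hsum, pow_succ]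
    ring
  rw [e4] at hst
  exact hst

end Vale.Agent.P057.R2.H133
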