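import Vale.Agent.P057.Bdl.B1
import Mathlib.NumberTheory.DiophantineApproximation.Basic

/-!
# P057 : blocks of density close to one for long progressions

Let `Q ≥ 3` and `m = Q!`.  Modulo a prime `p > m` take the residues `x` in `[p / Q, p)` such that
the residue of `m x` lies in `[p / Q, (1 - 1 / Q) p]`, and let the block consist of the residues of
`m x`.  Its density is at least `1 - 3 / Q`, and every congruential arithmetic progression with
more than `Q ^ 2 * m` terms in it is genuine.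
-/

set_option linter.all false

open Finset Filter

namespace Vale.Agent.P057.R2.H133

open Vale.Agent.P057.Lower

/-- the admissible `x` -/
def xs (Q m p : ℕ) : Finset ℕ :=
  (Finset.range p).filter (fun x => p ≤ Q * x ∧ p ≤ Q * ((m * x) % p) ∧
    Q * ((m * x) % p) + p ≤ Q * p)

/-- the dense block -/
def dense (Q m p : ℕ) : Finset ℤ :=
  (xs Q m p).image (fun x => (((m * x) % p : ℕ) : ℤ))

theorem mul_mod_inj {m p x y : ℕ} (hcop : Nat.Coprime m p) (hx : x < p) (hy : y < p)
    (h : (m * x) % p = (m * y) % p) : x = y := by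
  have h1 : m * x ≡ m * y [MOD p] := h
  have h2 : x ≡ y [MOD p] := Nat.ModEq.cancel_left_of_coprime (by rwa [Nat.coprime_comm] at hcop) h1
  have h3 : x % p = y % p := h2
  rwa [Nat.mod_eq_of_lt hx, Nat.mod_eq_of_lt hy] at h3

theorem small_card (Q p : ℕ) (hQ : 1 ≤ Q) :
    ((Finset.range p).filter (fun x => Q * x < p)).card ≤ p / Q + 1 := by
  have hsub : (Finset.range p).filter (fun x => Q * x < p) ⊆ Finset.range (p / Q + 1) := by
    intro x hx
    rw [Finset.mem_filter] at hx
    rw [Finset.mem_range]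
    have : x ≤ p / Q := (Nat.le_div_iff_mul_le (by omega)).2 (by rw [mul_comm]; exact hx.2.le)
    omega
  calc _ ≤ (Finset.range (p / Q + 1)).card := Finset.card_le_card hsub
    _ = _ := Finset.card_range _

theorem big_card (Q p : ℕ) (hQ : 1 ≤ Q) :
    ((Finset.range p).filter (fun x => Q * p < Q * x + p)).card ≤ p / Q + 1 := by
  have h1 : ((Finset.range p).filter (fun x => Q * p < Q * x + p)).card ≤
      ((Finset.range p).filter (fun x => Q * x < p)).card := by
    apply Finset.card_le_card_of_injOn (fun x => p - 1 - x)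
    · intro x hx
      have hx2 := Finset.mem_filter.1 (Finset.mem_coe.1 hx)
      have hx3 := Finset.mem_range.1 hx2.1
      have hx4 := hx2.2
      apply Finset.mem_coe.2
      rw [Finset.mem_filter, Finset.mem_range]
      refine ⟨by show p - 1 - x < p; omega, ?_⟩
      obtain ⟨y, hy⟩ : ∃ y, y = p - 1 - x := ⟨_, rfl⟩
      have hp : p = x + 1 + y := by omega
      show Q * (p - 1 - x) < p
      rw [← hy]
      have h5 : Q * p = Q * x + Q + Q * y := by rw [hp]; ring
      omega
    · intro x hx y hy hxy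
      have hx3 := Finset.mem_range.1 (Finset.mem_filter.1 (Finset.mem_coe.1 hx)).1
      have hy3 := Finset.mem_range.1 (Finset.mem_filter.1 (Finset.mem_coe.1 hy)).1
      have : p - 1 - x = p - 1 - y := hxy
      omega
  exact h1.trans (small_card Q p hQ)

/-- the number of elements of the dense block -/
theorem dense_card (Q m p : ℕ) (hQ : 1 ≤ Q) (hp : 0 < p) (hcop : Nat.Coprime m p) :
    p ≤ (dense Q m p).card + 3 * (p / Q + 1) := by
  have h1 : (dense Q m p).card = (xs Q m p).card := by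
    unfold dense
    apply Finset.card_image_of_injOn
    intro x hx y hy hxy
    have hx3 := Finset.mem_range.1 (Finset.mem_filter.1 (Finset.mem_coe.1 hx)).1
    have hy3 := Finset.mem_range.1 (Finset.mem_filter.1 (Finset.mem_coe.1 hy)).1
    have : (((m * x) % p : ℕ) : ℤ) = (((m * y) % p : ℕ) : ℤ) := hxy
    exact mul_mod_inj hcop hx3 hy3 (by exact_mod_cast this)
  have hinj : ∀ x ∈ Finset.range p, ∀ y ∈ Finset.range p, (m * x) % p = (m * y) % p → x = y :=
    fun x hx y hy h => mul_mod_inj hcop (Finset.mem_range.1 hx) (Finset.mem_range.1 hy) h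
  have hB : ((Finset.range p).filter (fun x => Q * ((m * x) % p) < p)).card ≤ p / Q + 1 := by
    refine le_trans ?_ (small_card Q p hQ)
    apply Finset.card_le_card_of_injOn (fun x => (m * x) % p)
    · intro x hx
      have hx2 := Finset.mem_filter.1 (Finset.mem_coe.1 hx)
      apply Finset.mem_coe.2
      rw [Finset.mem_filter, Finset.mem_range]
      exact ⟨Nat.mod_lt _ hp, hx2.2⟩
    · intro x hx y hy hxy
      exact hinj x (Finset.mem_filter.1 (Finset.mem_coe.1 hx)).1 y
        (Finset.mem_filter.1 (Finset.mem_coe.1 hy)).1 hxy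
  have hC : ((Finset.range p).filter (fun x => Q * p < Q * ((m * x) % p) + p)).card ≤
      p / Q + 1 := by
    refine le_trans ?_ (big_card Q p hQ)
    apply Finset.card_le_card_of_injOn (fun x => (m * x) % p)
    · intro x hx
      have hx2 := Finset.mem_filter.1 (Finset.mem_coe.1 hx)
      apply Finset.mem_coe.2
      rw [Finset.mem_filter, Finset.mem_range]
      exact ⟨Nat.mod_lt _ hp, hx2.2⟩
    · intro x hx y hy hxy
      exact hinj x (Finset.mem_filter.1 (Finset.mem_coe.1 hx)).1 y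
        (Finset.mem_filter.1 (Finset.mem_coe.1 hy)).1 hxy
  have hcov : Finset.range p ⊆ xs Q m p ∪ (((Finset.range p).filter (fun x => Q * x < p)) ∪
      (((Finset.range p).filter (fun x => Q * ((m * x) % p) < p)) ∪
      ((Finset.range p).filter (fun x => Q * p < Q * ((m * x) % p) + p)))) := by
    intro x hx
    simp only [Finset.mem_union, Finset.mem_filter, xs]
    by_cases a1 : Q * x < p
    · right; left; exact ⟨hx, a1⟩
    by_cases a2 : Q * ((m * x) % p) < p
    · right; right; left; exact ⟨hx, a2⟩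
    by_cases a3 : Q * p < Q * ((m * x) % p) + p
    · right; right; right; exact ⟨hx, a3⟩
    · left; exact ⟨hx, by omega, by omega, by omega⟩
  have h2 := Finset.card_le_card hcov
  rw [Finset.card_range] at h2
  have h3 := Finset.card_union_le (xs Q m p) (((Finset.range p).filter (fun x => Q * x < p)) ∪
      (((Finset.range p).filter (fun x => Q * ((m * x) % p) < p)) ∪
      ((Finset.range p).filter (fun x => Q * p < Q * ((m * x) % p) + p))))
  have h4 := Finset.card_union_le ((Finset.range p).filter (fun x => Q * x < p))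
      (((Finset.range p).filter (fun x => Q * ((m * x) % p) < p)) ∪
      ((Finset.range p).filter (fun x => Q * p < Q * ((m * x) % p) + p)))
  have h5 := Finset.card_union_le ((Finset.range p).filter (fun x => Q * ((m * x) % p) < p))
      ((Finset.range p).filter (fun x => Q * p < Q * ((m * x) % p) + p))
  have h6 := small_card Q p hQ
  omega

/-- Dirichlet's theorem in integers -/
theorem dirichlet (Q p : ℕ) (hQ : 1 ≤ Q) (hp : 0 < p) (δ : ℤ) : ∃ q a : ℤ, 1 ≤ q ∧ q ≤ Q ∧
    (Q + 1) * |q * δ - a * p| ≤ p := by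
  obtain ⟨a, q, hq0, hqQ, h⟩ := Real.exists_int_int_abs_mul_sub_le ((δ : ℝ) / p)
    (n := Q) (by omega)
  refine ⟨q, a, by omega, hqQ, ?_⟩
  have hpR : (0 : ℝ) < p := by exact_mod_cast hp
  have h1 : |((q * δ - a * p : ℤ) : ℝ)| = |(q : ℝ) * ((δ : ℝ) / p) - a| * p := by
    rw [← abs_of_pos hpR, ← abs_mul, abs_of_pos hpR]
    congr 1
    push_cast
    field_simp
  have h2 : ((Q : ℝ) + 1) * |((q * δ - a * p : ℤ) : ℝ)| ≤ p := by
    rw [h1]
    have hQ1 : (0 : ℝ) < (Q : ℝ) + 1 := by positivity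
    rw [le_div_iff₀ hQ1] at h
    nlinarith
  exact_mod_cast h2

theorem mem_dense {Q m p : ℕ} (hp : 0 < p) {u : ℤ} (hu : u ∈ dense Q m p) :
    ∃ x j : ℤ, 0 ≤ x ∧ x < p ∧ p ≤ Q * x ∧ m * x = u + j * p ∧ p ≤ Q * u ∧ Q * u + p ≤ Q * p ∧
      0 ≤ u ∧ u < p := by
  obtain ⟨x, hx, rfl⟩ := Finset.mem_image.1 hu
  obtain ⟨h1, h2, h3, h4⟩ := Finset.mem_filter.1 hx
  have h1' := Finset.mem_range.1 h1
  refine ⟨x, ((m * x / p : ℕ) : ℤ), by positivity, by exact_mod_cast h1', by exact_mod_cast h2, ?_,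
    by exact_mod_cast h3, by exact_mod_cast h4, by positivity, ?_⟩
  · have h5 := Nat.mod_add_div (m * x) p
    have h6 : (((m * x) % p + p * (m * x / p) : ℕ) : ℤ) = ((m * x : ℕ) : ℤ) := by rw [h5]
    push_cast at h6 ⊢
    linarith
  · have h5 := Nat.mod_lt (m * x) hp
    exact_mod_cast h5

theorem eq_of_bounds {Q p w e : ℤ} (hQ : 1 ≤ Q) (h1 : Q * |w| ≤ Q * p - p) (h2 : Q * |e| < p)
    (h : p ∣ w - e) : w = e := by
  have h4 : w - e = 0 := by
    apply Int.eq_zero_of_abs_lt_dvd h
    have h5 : Q * |w - e| < Q * p := by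
      have h6 : |w - e| ≤ |w| + |e| := abs_sub _ _
      have h7 : Q * |w - e| ≤ Q * (|w| + |e|) := mul_le_mul_of_nonneg_left h6 (by linarith)
      linarith
    exact lt_of_mul_lt_mul_left h5 (by linarith)
  linarith

theorem abs_bound {Q p a b : ℤ} (h1 : Q * a - Q * b ≤ Q * p - p)
    (h2 : Q * b - Q * a ≤ Q * p - p) : Q * |a - b| ≤ Q * p - p := by
  rcases abs_cases (a - b) with ⟨h8, _⟩ | ⟨h8, _⟩ <;> rw [h8] <;> linarith

theorem x_bound {Q p a b : ℤ} (hQ : 1 ≤ Q) (ha : a < p) (hb : b < p) (ha' : p ≤ Q * a)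
    (hb' : p ≤ Q * b) : Q * |a - b| ≤ Q * p - p := by
  have h1 : Q * a ≤ Q * p := mul_le_mul_of_nonneg_left ha.le (by linarith)
  have h2 : Q * b ≤ Q * p := mul_le_mul_of_nonneg_left hb.le (by linarith)
  exact abs_bound (by linarith) (by linarith)

theorem eta_bound {Q p e : ℤ} (hQ : 1 ≤ Q) (hp : 0 < p) (h : (Q + 1) * |e| ≤ p) : Q * |e| < p := by
  have h1 : 0 ≤ |e| := abs_nonneg _
  rcases h1.lt_or_eq with h2 | h2
  · linarith
  · rw [← h2]; linarith

theorem beta_bound {Q m p b e : ℤ} (hQ : 1 ≤ Q) (hb0 : 0 < b) (hbm : b ≤ m)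
    (h : Q * m * |e| < p) : Q * |b * e| < p := by
  rw [abs_mul, abs_of_pos hb0]
  have h9 : 0 ≤ |e| := abs_nonneg _
  have h10 : b * |e| ≤ m * |e| := mul_le_mul_of_nonneg_right hbm h9
  have h11 : Q * (b * |e|) ≤ Q * (m * |e|) := mul_le_mul_of_nonneg_left h10 (by linarith)
  linarith

theorem quot_pos {m q b : ℤ} (hm : 0 < m) (hq : 1 ≤ q) (hb : m = q * b) : 0 < b ∧ b ≤ m := by
  have hb0 : 0 < b := by
    by_contra hcon
    push Not at hcon
    nlinarith
  exact ⟨hb0, by nlinarith⟩

/-- the values of `x` along a progression -/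
theorem x_prog {p : ℤ} {k : ℕ} {x : ℕ → ℤ}
    (hsec : ∀ i, i + 2 < k → p ∣ x i - 2 * x (i + 1) + x (i + 2)) :
    ∀ s i : ℕ, i + s < k → p ∣ x (i + s) - x i - s * (x 1 - x 0) := by
  have hfirst : ∀ i, i + 1 < k → p ∣ x (i + 1) - x i - (x 1 - x 0) := by
    intro i
    induction i with
    | zero => intro _; simp
    | succ i ih =>
      intro hi
      have h1 := ih (by omega)
      have h2 := hsec i (by omega)
      have h3 : x (i + 1 + 1) - x (i + 1) - (x 1 - x 0) =
          (x (i + 1) - x i - (x 1 - x 0)) + (x i - 2 * x (i + 1) + x (i + 2)) := by ring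
      rw [h3]
      exact dvd_add h1 h2
  intro s
  induction s with
  | zero => intro i _; simp
  | succ s ih =>
    intro i hi
    have h1 := ih i (by omega)
    have h2 := hfirst (i + s) (by omega)
    have h3 : x (i + (s + 1)) - x i - ((s + 1 : ℕ) : ℤ) * (x 1 - x 0) =
        (x (i + s) - x i - s * (x 1 - x 0)) + (x (i + s + 1) - x (i + s) - (x 1 - x 0)) := by
      push_cast
      have : i + (s + 1) = i + s + 1 := by ring
      rw [this]
      ring
    rw [h3]
    exact dvd_add h1 h2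

/-- the difference along multiples of `q` is small -/
theorem eta_small {Q m qn k : ℕ} {p η : ℤ} {x : ℕ → ℤ} (hk : Q * Q * m < k) (hq : qn ≤ Q)
    (hx0 : ∀ i, i < k → 0 ≤ x i) (hxp : ∀ i, i < k → x i < p)
    (hstep : ∀ i, i + qn < k → x (i + qn) - x i = η) : (Q : ℤ) * m * |η| < p := by
  have hlin : ∀ t : ℕ, t * qn < k → x (t * qn) - x 0 = t * η := by
    intro t
    induction t with
    | zero => intro _; simp
    | succ t ih =>
      intro ht
      have h1 : t * qn + qn < k := by
        have : (t + 1) * qn = t * qn + qn := by ring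
        omega
      have h2 := ih (by omega)
      have h3 := hstep (t * qn) h1
      have h4 : (t + 1) * qn = t * qn + qn := by ring
      rw [h4]
      push_cast
      linarith
  have h1 : (Q * m) * qn < k := by
    calc (Q * m) * qn ≤ (Q * m) * Q := Nat.mul_le_mul_left _ hq
      _ = Q * Q * m := by ring
      _ < k := hk
  have h3 := hlin (Q * m) h1
  have a1 := hx0 0 (by omega)
  have a2 := hxp 0 (by omega)
  have b1 := hx0 _ h1
  have b2 := hxp _ h1
  have h4 : |((Q * m : ℕ) : ℤ) * η| < p := by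
    rw [← h3, abs_lt]
    constructor <;> linarith
  rw [abs_mul, abs_of_nonneg (by positivity)] at h4
  push_cast at h4
  exact h4

/-- long congruential arithmetic progressions in the dense block are genuine -/
theorem dense_block (Q m p k : ℕ) (hQ : 1 ≤ Q) (hm : ∀ q : ℤ, 1 ≤ q → q ≤ Q → q ∣ m) (hm0 : 0 < m)
    (hp : 0 < p) (hcop : Nat.Coprime m p) (hk : Q * Q * m < k) : Block k 1 p (dense Q m p) := by
  have hpZ : (0 : ℤ) < p := by exact_mod_cast hp
  have hQZ : (1 : ℤ) ≤ Q := by exact_mod_cast hQ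
  have hmZ : (0 : ℤ) < m := by exact_mod_cast hm0
  have hcopZ : IsCoprime (p : ℤ) (m : ℤ) := (Nat.isCoprime_iff_coprime.2 hcop).symm
  constructor
  · intro u hu v hv h
    obtain ⟨_, _, _, _, _, _, _, _, a1, a2⟩ := mem_dense hp hu
    obtain ⟨_, _, _, _, _, _, _, _, b1, b2⟩ := mem_dense hp hv
    have h0 : u - v = 0 := by
      apply Int.eq_zero_of_abs_lt_dvd h
      rw [abs_lt]
      constructor <;> linarith
    linarith
  · intro u hu hdvd
    have hex : ∀ i : ℕ, ∃ x j : ℤ, i < k → 0 ≤ x ∧ x < p ∧ p ≤ Q * x ∧ m * x = u i + j * p ∧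
        p ≤ Q * u i ∧ Q * u i + p ≤ Q * p := by
      intro i
      by_cases hi : i < k
      · obtain ⟨x, j, h1, h2, h3, h4, h5, h6, _, _⟩ := mem_dense hp (hu i hi)
        exact ⟨x, j, fun _ => ⟨h1, h2, h3, h4, h5, h6⟩⟩
      · exact ⟨0, 0, fun h => absurd h hi⟩
    choose x j hx using hex
    have hsec : ∀ i, i + 2 < k → (p : ℤ) ∣ x i - 2 * x (i + 1) + x (i + 2) := by
      intro i hi
      have h1 := hdvd i (by omega)
      rw [diff_two] at h1
      have h2 := (hx i (by omega)).2.2.2.1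
      have h3 := (hx (i + 1) (by omega)).2.2.2.1
      have h4 := (hx (i + 2) (by omega)).2.2.2.1
      apply hcopZ.dvd_of_dvd_mul_left
      have h5 : (m : ℤ) * (x i - 2 * x (i + 1) + x (i + 2)) =
          (u i - 2 * u (i + 1) + u (i + 2)) + p * (j i - 2 * j (i + 1) + j (i + 2)) := by
        linear_combination h2 - 2 * h3 + h4
      rw [h5]
      exact dvd_add h1 (dvd_mul_right _ _)
    have hmany := x_prog hsec
    obtain ⟨δ, hδ⟩ : ∃ δ : ℤ, δ = x 1 - x 0 := ⟨_, rfl⟩
    rw [← hδ] at hmany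
    obtain ⟨q, a, hq1, hqQ, hqa⟩ := dirichlet Q p hQ hp δ
    obtain ⟨η, hη⟩ : ∃ η : ℤ, η = q * δ - a * p := ⟨_, rfl⟩
    rw [← hη] at hqa
    obtain ⟨qn, hqn⟩ : ∃ qn : ℕ, q = qn := ⟨q.toNat, by rw [Int.toNat_of_nonneg (by omega)]⟩
    have hηb : Q * |η| < (p : ℤ) := eta_bound hQZ hpZ hqa
    have hstep : ∀ i, i + qn < k → x (i + qn) - x i = η := by
      intro i hi
      have h1 := hmany qn i hi
      obtain ⟨a1, a2, a3, _, _, _⟩ := hx i (by omega)
      obtain ⟨b1, b2, b3, _, _, _⟩ := hx (i + qn) hi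
      have h2 : (p : ℤ) ∣ x (i + qn) - x i - η := by
        have h3 : x (i + qn) - x i - η = (x (i + qn) - x i - qn * δ) + p * a := by
          rw [hη, hqn]; ring
        rw [h3]
        exact dvd_add h1 (dvd_mul_right _ _)
      exact eq_of_bounds hQZ (x_bound hQZ b2 a2 b3 a3) hηb h2
    have hqnQ : qn ≤ Q := by
      have : (qn : ℤ) ≤ Q := by rw [← hqn]; exact hqQ
      exact_mod_cast this
    have hηm := eta_small hk hqnQ (fun i hi => (hx i hi).1) (fun i hi => (hx i hi).2.1) hstep
    obtain ⟨b, hb⟩ := hm q hq1 hqQ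
    obtain ⟨hb0, hbm⟩ := quot_pos hmZ hq1 hb
    have hβ := beta_bound hQZ hb0 hbm hηm
    have hdiff : ∀ i, i + 1 < k → u (i + 1) - u i = b * η := by
      intro i hi
      obtain ⟨_, _, _, a4, a5, a6⟩ := hx i (by omega)
      obtain ⟨_, _, _, b4, b5, b6⟩ := hx (i + 1) hi
      obtain ⟨c, hc⟩ := hmany 1 i hi
      have h1 : (p : ℤ) ∣ u (i + 1) - u i - b * η := by
        refine ⟨m * c + b * a - j (i + 1) + j i, ?_⟩
        have e1 : u (i + 1) - u i = m * (x (i + 1) - x i) - (j (i + 1) - j i) * p := by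
          linear_combination a4 - b4
        have e2 : x (i + 1) - x i = δ + p * c := by
          push_cast at hc
          linarith
        rw [e1, e2, hη]
        have e3 : (m : ℤ) * (δ + p * c) = b * (q * δ) + m * (p * c) := by rw [hb]; ring
        rw [e3]
        ring
      exact eq_of_bounds hQZ (abs_bound (by linarith) (by linarith)) hβ h1
    intro i hi
    rw [diff_two]
    have h1 := hdiff i (by omega)
    have h2 := hdiff (i + 1) (by omega)
    have h3 : u (i + 1 + 1) = u (i + 2) := rfl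
    rw [h3] at h2
    linarith

/-- blocks of arbitrarily small cost for long progressions -/
theorem cost_small (δ : ℝ) (hδ : 0 < δ) : ∃ K : ℕ, ∀ k : ℕ, K ≤ k → Cost k 1 δ := by
  have hlt : Real.exp (-δ) < 1 := Real.exp_lt_one_iff.2 (by linarith only [hδ])
  obtain ⟨Q0, hQ0⟩ := eventually_div_le 6 (1 - Real.exp (-δ)) (by linarith)
  obtain ⟨Q, hQdef⟩ : ∃ Q : ℕ, Q = max Q0 3 := ⟨_, rfl⟩
  have hQ3 : 3 ≤ Q := by rw [hQdef]; exact le_max_right _ _
  have hQQ0 : Q0 ≤ Q := by rw [hQdef]; exact le_max_left _ _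
  have h6 := hQ0 Q hQQ0
  refine ⟨Q * Q * Q.factorial + 1, fun k hk η hη => ?_⟩
  obtain ⟨m0, hm0⟩ := eventually_div_le 3 (3 / (Q : ℝ)) (by positivity)
  refine ⟨max m0 (Q.factorial + 1), fun p hp hpp => ?_⟩
  have hpm0 : m0 ≤ p := le_trans (le_max_left _ _) hp
  have hpf : Q.factorial < p := lt_of_lt_of_le (Nat.lt_succ_self _) (le_trans (le_max_right _ _) hp)
  have hp0 : 0 < p := hpp.pos
  have hcop : Nat.Coprime Q.factorial p := by
    apply Nat.Coprime.symm
    rw [Nat.Prime.coprime_iff_not_dvd hpp]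
    intro h
    exact absurd (Nat.le_of_dvd (Nat.factorial_pos _) h) (by omega)
  refine ⟨dense Q Q.factorial p, dense_block Q Q.factorial p k (by omega) ?_
    (Nat.factorial_pos _) hp0 hcop (by omega), ?_, ?_⟩
  · intro q hq1 hqQ
    obtain ⟨qn, hqn⟩ : ∃ qn : ℕ, q = qn := ⟨q.toNat, by rw [Int.toNat_of_nonneg (by omega)]⟩
    subst hqn
    exact_mod_cast Nat.dvd_factorial (by omega) (by omega)
  · intro u hu
    obtain ⟨_, _, _, _, _, _, _, _, a1, a2⟩ := mem_dense hp0 hu
    rw [abs_le]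
    constructor <;> linarith
  · have hpR : (0 : ℝ) < p := by exact_mod_cast hp0
    have hQR : (0 : ℝ) < Q := by
      have : 0 < Q := by omega
      exact_mod_cast this
    have h1 := dense_card Q Q.factorial p (by omega) hp0 hcop
    have h2 : (p : ℝ) ≤ (dense Q Q.factorial p).card + 3 * ((p / Q : ℕ) + 1) := by
      exact_mod_cast h1
    have h3 : ((p / Q : ℕ) : ℝ) ≤ p / Q := Nat.cast_div_le
    have h4 := hm0 p hpm0
    rw [div_le_iff₀ hpR] at h4
    have h5 : Real.exp (-(δ + η)) ≤ Real.exp (-δ) := Real.exp_le_exp.2 (by linarith)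
    refine h5.trans ?_
    rw [le_div_iff₀ hpR]
    have e1 : (p : ℝ) / Q = 1 / Q * p := by ring
    have e2 : 3 / (Q : ℝ) * p = 3 * (1 / Q * p) := by ring
    have e3 : 6 / (Q : ℝ) * p ≤ (1 - Real.exp (-δ)) * p := mul_le_mul_of_nonneg_right h6 hpR.le
    have e4 : 6 / (Q : ℝ) * p = 6 * (1 / Q * p) := by ring
    rw [e1] at h3
    rw [e2] at h4
    rw [e4] at e3
    linarith

end Vale.Agent.P057.R2.H133
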