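import Vale.Agent.P057.R2.H133.Mix

/-!
# P057 : a block of density `3/5` for progressions with at least five terms

The even numbers `u` with `|u| < p / 3` and the odd numbers `u` with `- 2 p / 15 < u < 2 p / 5`.
Congruential progressions with five terms in this block are genuine, or they satisfy
`e u₀ + e u₄ - 2 e u₂ > 0`, where `e` is the parity; for genuine ones this number is `0`.
-/

set_option linter.all false

open Finset

namespace Vale.Agent.P057.R2.H133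

/-- membership, abstractly -/
def Jn (P u : ℤ) : Prop :=
  (u % 2 = 0 ∧ -P < 3 * u ∧ 3 * u < P) ∨ (u % 2 = 1 ∧ -(2 * P) < 15 * u ∧ 5 * u < 2 * P)

/-- the block: even numbers up to `p / 3`, odd numbers between `- 2 p / 15` and `2 p / 5` -/
noncomputable def fb (p : ℕ) : Finset ℤ :=
  (Finset.Icc (-(p : ℤ)) p).filter
    (fun u => (u % 2 = 0 ∧ -(p : ℤ) < 3 * u ∧ 3 * u < p) ∨
      (u % 2 = 1 ∧ -(2 * (p : ℤ)) < 15 * u ∧ 5 * u < 2 * (p : ℤ)))

theorem mem_fb {p : ℕ} {u : ℤ} (hu : u ∈ fb p) : Jn p u :=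
  (Finset.mem_filter.1 hu).2

theorem fb_abs {p : ℕ} {u : ℤ} (hu : u ∈ fb p) : |u| ≤ p := by
  have := Finset.mem_Icc.1 (Finset.mem_filter.1 hu).1
  exact abs_le.2 this

theorem fb_inj {p : ℕ} (hp : 0 < p) {a b : ℤ} (ha : a ∈ fb p)
    (hb : b ∈ fb p) (h : (p : ℤ) ∣ a - b) : a = b := by
  have h1 := mem_fb ha
  have h2 := mem_fb hb
  unfold Jn at h1 h2
  have hlt : |a - b| < (p : ℤ) := by
    rw [abs_lt]
    constructor <;> omega
  have := Int.eq_zero_of_abs_lt_dvd h hlt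
  omega

theorem fb_q {P a b c : ℤ} (h0 : 0 < P) (h1 : Jn P a)
    (h2 : Jn P b) (h3 : Jn P c) (h : P ∣ a - 2 * b + c) :
    a - 2 * b + c = 0 ∨ a - 2 * b + c = P ∨ a - 2 * b + c = -P := by
  obtain ⟨q, hq⟩ := h
  unfold Jn at h1 h2 h3
  have hlt : |a - 2 * b + c| < 2 * P := by
    rw [abs_lt]
    constructor <;> omega
  rw [hq, abs_mul, abs_of_pos h0] at hlt
  have hq2 : |q| < 2 := by
    by_contra hcon
    push Not at hcon
    nlinarith only [hlt, hcon, h0]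
  rw [abs_lt] at hq2
  have : q = 0 ∨ q = 1 ∨ q = -1 := by omega
  rcases this with rfl | rfl | rfl
  · left; rw [hq]; ring
  · right; left; rw [hq]; ring
  · right; right; rw [hq]; ring

theorem fb_pos_zero {P a b c d f : ℤ} (hP : P % 2 = 1) (h0 : 0 < P) (f1 : Jn P a) (f2 : Jn P b)
    (f3 : Jn P c) (f4 : Jn P d) (f5 : Jn P f) (e1 : a - 2 * b + c = P)
    (e2 : b - 2 * c + d = 0)
    (e3 : c - 2 * d + f = 0 ∨ c - 2 * d + f = P ∨ c - 2 * d + f = -P) :
    0 < a % 2 + f % 2 - 2 * (c % 2) := by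
  unfold Jn at *
  rcases e3 with e3 | e3 | e3 <;> omega

theorem fb_pos_pos {P a b c d f : ℤ} (hP : P % 2 = 1) (h0 : 0 < P) (f1 : Jn P a) (f2 : Jn P b)
    (f3 : Jn P c) (f4 : Jn P d) (f5 : Jn P f) (e1 : a - 2 * b + c = P)
    (e2 : b - 2 * c + d = P)
    (e3 : c - 2 * d + f = 0 ∨ c - 2 * d + f = P ∨ c - 2 * d + f = -P) :
    0 < a % 2 + f % 2 - 2 * (c % 2) := by
  unfold Jn at *
  rcases e3 with e3 | e3 | e3 <;> omega

theorem fb_pos_neg {P a b c d f : ℤ} (hP : P % 2 = 1) (h0 : 0 < P) (f1 : Jn P a) (f2 : Jn P b)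
    (f3 : Jn P c) (f4 : Jn P d) (f5 : Jn P f) (e1 : a - 2 * b + c = P)
    (e2 : b - 2 * c + d = -P)
    (e3 : c - 2 * d + f = 0 ∨ c - 2 * d + f = P ∨ c - 2 * d + f = -P) :
    0 < a % 2 + f % 2 - 2 * (c % 2) := by
  unfold Jn at *
  rcases e3 with e3 | e3 | e3 <;> omega

theorem fb_neg_zero {P a b c d f : ℤ} (hP : P % 2 = 1) (h0 : 0 < P) (f1 : Jn P a) (f2 : Jn P b)
    (f3 : Jn P c) (f4 : Jn P d) (f5 : Jn P f) (e1 : a - 2 * b + c = -P)
    (e2 : b - 2 * c + d = 0)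
    (e3 : c - 2 * d + f = 0 ∨ c - 2 * d + f = P ∨ c - 2 * d + f = -P) :
    0 < a % 2 + f % 2 - 2 * (c % 2) := by
  unfold Jn at *
  rcases e3 with e3 | e3 | e3 <;> omega

theorem fb_neg_pos {P a b c d f : ℤ} (hP : P % 2 = 1) (h0 : 0 < P) (f1 : Jn P a) (f2 : Jn P b)
    (f3 : Jn P c) (f4 : Jn P d) (f5 : Jn P f) (e1 : a - 2 * b + c = -P)
    (e2 : b - 2 * c + d = P)
    (e3 : c - 2 * d + f = 0 ∨ c - 2 * d + f = P ∨ c - 2 * d + f = -P) :
    0 < a % 2 + f % 2 - 2 * (c % 2) := by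
  unfold Jn at *
  rcases e3 with e3 | e3 | e3 <;> omega

theorem fb_neg_neg {P a b c d f : ℤ} (hP : P % 2 = 1) (h0 : 0 < P) (f1 : Jn P a) (f2 : Jn P b)
    (f3 : Jn P c) (f4 : Jn P d) (f5 : Jn P f) (e1 : a - 2 * b + c = -P)
    (e2 : b - 2 * c + d = -P)
    (e3 : c - 2 * d + f = 0 ∨ c - 2 * d + f = P ∨ c - 2 * d + f = -P) :
    0 < a % 2 + f % 2 - 2 * (c % 2) := by
  unfold Jn at *
  rcases e3 with e3 | e3 | e3 <;> omega

theorem fb_mid_pos {P a b c d f : ℤ} (hP : P % 2 = 1) (h0 : 0 < P) (f1 : Jn P a) (f2 : Jn P b)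
    (f3 : Jn P c) (f4 : Jn P d) (f5 : Jn P f) (e1 : a - 2 * b + c = 0)
    (e2 : b - 2 * c + d = P) (e3 : c - 2 * d + f = 0) :
    0 < a % 2 + f % 2 - 2 * (c % 2) := by
  unfold Jn at *
  omega

theorem fb_mid_neg {P a b c d f : ℤ} (hP : P % 2 = 1) (h0 : 0 < P) (f1 : Jn P a) (f2 : Jn P b)
    (f3 : Jn P c) (f4 : Jn P d) (f5 : Jn P f) (e1 : a - 2 * b + c = 0)
    (e2 : b - 2 * c + d = -P) (e3 : c - 2 * d + f = 0) :
    0 < a % 2 + f % 2 - 2 * (c % 2) := by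
  unfold Jn at *
  omega

theorem fb_ne {P a b c d f : ℤ} (hP : P % 2 = 1) (h0 : 0 < P) (f1 : Jn P a) (f2 : Jn P b)
    (f3 : Jn P c) (f4 : Jn P d) (f5 : Jn P f)
    (e1 : a - 2 * b + c = P ∨ a - 2 * b + c = -P)
    (e2 : b - 2 * c + d = 0 ∨ b - 2 * c + d = P ∨ b - 2 * c + d = -P)
    (e3 : c - 2 * d + f = 0 ∨ c - 2 * d + f = P ∨ c - 2 * d + f = -P) :
    0 < a % 2 + f % 2 - 2 * (c % 2) := by
  rcases e1 with e1 | e1
  · rcases e2 with e2 | e2 | e2
    · exact fb_pos_zero hP h0 f1 f2 f3 f4 f5 e1 e2 e3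
    · exact fb_pos_pos hP h0 f1 f2 f3 f4 f5 e1 e2 e3
    · exact fb_pos_neg hP h0 f1 f2 f3 f4 f5 e1 e2 e3
  · rcases e2 with e2 | e2 | e2
    · exact fb_neg_zero hP h0 f1 f2 f3 f4 f5 e1 e2 e3
    · exact fb_neg_pos hP h0 f1 f2 f3 f4 f5 e1 e2 e3
    · exact fb_neg_neg hP h0 f1 f2 f3 f4 f5 e1 e2 e3

/-- the certificate -/
theorem fb_five {P a b c d f : ℤ} (hP : P % 2 = 1) (h0 : 0 < P) (f1 : Jn P a) (f2 : Jn P b)
    (f3 : Jn P c) (f4 : Jn P d) (f5 : Jn P f) (h1 : P ∣ a - 2 * b + c)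
    (h2 : P ∣ b - 2 * c + d) (h3 : P ∣ c - 2 * d + f) :
    (a - 2 * b + c = 0 ∧ b - 2 * c + d = 0 ∧ c - 2 * d + f = 0) ∨
      0 < a % 2 + f % 2 - 2 * (c % 2) := by
  have e1 := fb_q h0 f1 f2 f3 h1
  have e2 := fb_q h0 f2 f3 f4 h2
  have e3 := fb_q h0 f3 f4 f5 h3
  rcases e1 with e1 | e1
  · rcases e3 with e3 | e3
    · rcases e2 with e2 | e2 | e2
      · left; exact ⟨e1, e2, e3⟩
      · right; exact fb_mid_pos hP h0 f1 f2 f3 f4 f5 e1 e2 e3
      · right; exact fb_mid_neg hP h0 f1 f2 f3 f4 f5 e1 e2 e3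
    · right
      have := fb_ne hP h0 f5 f4 f3 f2 f1 (by
        rcases e3 with e3 | e3
        · left; linarith
        · right; linarith) (by
        rcases e2 with e2 | e2 | e2
        · left; linarith
        · right; left; linarith
        · right; right; linarith) (by left; linarith)
      linarith
  · right; exact fb_ne hP h0 f1 f2 f3 f4 f5 e1 e2 e3

theorem fb_blk {p : ℕ} (hp : p % 2 = 1) : CBlk p (fb p) (fun u => 1 - u % 2) := by
  refine ⟨fun u hu v hv h => fb_inj (by omega) hu hv h, fun u _ => ?_, fun u _ => ?_, ?_⟩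
  · have := Int.emod_lt_of_pos u (by norm_num : (0 : ℤ) < 2)
    show 0 ≤ 1 - u % 2
    omega
  · have := Int.emod_nonneg u (by norm_num : (2 : ℤ) ≠ 0)
    show 1 - u % 2 ≤ 1
    omega
  · intro a ha b hb c hc d hd f hf h1 h2 h3
    show 0 ≤ 2 * (1 - c % 2) - (1 - a % 2) - (1 - f % 2) ∧
      (2 * (1 - c % 2) - (1 - a % 2) - (1 - f % 2) = 0 → _)
    rcases fb_five (by omega : (p : ℤ) % 2 = 1) (by omega : 0 < (p : ℤ)) (mem_fb ha) (mem_fb hb)
      (mem_fb hc) (mem_fb hd) (mem_fb hf) h1 h2 h3 with h | h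
    · refine ⟨?_, fun _ => h⟩
      obtain ⟨k1, k2, k3⟩ := h
      have l1 : a % 2 = c % 2 := by omega
      have l2 : f % 2 = c % 2 := by omega
      rw [l1, l2]
      linarith
    · exact ⟨by linarith, fun h0 => by linarith⟩

theorem fb_card (p : ℕ) : (3 * p : ℝ) / 5 - 2 ≤ (fb p).card := by
  have hsub : (Finset.Icc (-((p - 1) / 6 : ℕ) : ℤ) ((p - 1) / 6 : ℕ)).image (fun v => 2 * v) ∪
      (Finset.Ico (-((2 * p + 14) / 30 : ℕ) : ℤ) ((2 * p + 4) / 10 : ℕ)).image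
        (fun v => 2 * v + 1) ⊆ fb p ∪ (if p = 0 then {0} else ∅) := by
    intro u hu
    rcases Nat.eq_zero_or_pos p with rfl | hp0
    · simp only [Nat.zero_sub, Nat.zero_div, Nat.zero_add] at hu
      rw [Finset.mem_union]
      right
      simp at hu ⊢
      exact hu
    rw [if_neg (by omega), Finset.union_empty]
    unfold fb
    rw [Finset.mem_filter, Finset.mem_Icc]
    rw [Finset.mem_union, Finset.mem_image, Finset.mem_image] at hu
    rcases hu with ⟨v, hv, rfl⟩ | ⟨v, hv, rfl⟩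
    · rw [Finset.mem_Icc] at hv
      omega
    · rw [Finset.mem_Ico] at hv
      omega
  rcases Nat.eq_zero_or_pos p with rfl | hp0
  · have : (0 : ℝ) ≤ (fb 0).card := by (clear * -; positivity)
    simp only [Nat.cast_zero]
    linarith
  rw [if_neg (by omega), Finset.union_empty] at hsub
  have hdisj : Disjoint
      ((Finset.Icc (-((p - 1) / 6 : ℕ) : ℤ) ((p - 1) / 6 : ℕ)).image (fun v => 2 * v))
      ((Finset.Ico (-((2 * p + 14) / 30 : ℕ) : ℤ) ((2 * p + 4) / 10 : ℕ)).image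
        (fun v => 2 * v + 1)) := by
    rw [Finset.disjoint_left]
    intro u hu hu'
    obtain ⟨v, _, rfl⟩ := Finset.mem_image.1 hu
    obtain ⟨w, _, hw⟩ := Finset.mem_image.1 hu'
    omega
  have hcard := Finset.card_le_card hsub
  rw [Finset.card_union_of_disjoint hdisj,
    Finset.card_image_of_injective _ (fun a b h => by simpa only [mul_eq_mul_left_iff, OfNat.ofNat_ne_zero, or_false] using h),
    Finset.card_image_of_injective _ (fun a b h => by simpa only [add_left_inj, mul_eq_mul_left_iff, OfNat.ofNat_ne_zero, or_false] using h),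
    Int.card_Icc, Int.card_Ico] at hcard
  have h5 : 3 * p ≤ 5 * (fb p).card + 10 := by omega
  have h6 : (3 * p : ℝ) ≤ 5 * (fb p).card + 10 := by exact_mod_cast h5
  linarith only [h6]

end Vale.Agent.P057.R2.H133
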