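import Vale.Agent.P057.R2.H133.Asy
import Vale.Agent.P057.R2.H133.Five

/-!
# P057 : lower bounds for progressions with at least five terms, final form
-/

set_option linter.all false

open Finset Filter Polynomial

namespace Vale.Agent.P057.R2.H133

open Vale.Agent.P057.Lower

/-- the cost of the block -/
theorem cost_fb (η : ℝ) (hη : 0 < η) : ∃ m0 : ℕ, ∀ p : ℕ, m0 ≤ p → p.Prime →
    ∃ U : Finset ℤ, CBlk p U (fun u => 1 - u % 2) ∧ (∀ u ∈ U, |u| ≤ p) ∧
      Real.exp (-(Real.log (5 / 3) + η)) ≤ (U.card : ℝ) / p := by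
  have hlt : Real.exp (-η) < 1 := Real.exp_lt_one_iff.2 (by linarith only [hη])
  obtain ⟨m0, hm0⟩ := eventually_div_le 2 (3 / 5 * (1 - Real.exp (-η))) (by linarith only [hlt])
  refine ⟨max m0 3, fun p hp hpp => ?_⟩
  have hp0 : 3 ≤ p := le_trans (le_max_right _ _) hp
  have hpm : m0 ≤ p := le_trans (le_max_left _ _) hp
  have hodd : p % 2 = 1 := hpp.eq_two_or_odd.resolve_left (by omega)
  refine ⟨_, fb_blk hodd, fun u hu => fb_abs hu, ?_⟩
  have hpR : (0 : ℝ) < p := by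
    have : 0 < p := by omega
    exact_mod_cast this
  have h1 := fb_card p
  have h4 := hm0 p hpm
  rw [div_le_iff₀ hpR] at h4
  have h5 : Real.exp (-(Real.log (5 / 3) + η)) = 3 / 5 * Real.exp (-η) := by
    rw [neg_add, Real.exp_add, Real.exp_neg, Real.exp_log (by norm_num)]
    norm_num
  rw [h5, le_div_iff₀ hpR]
  nlinarith only [h1, h4]

theorem asy_fb (k n : ℕ) (hn : 3 ≤ n) (hk5 : 5 ≤ k) (hk : 2 ^ (n - 1) < k) :
    Asy k 1 n (2 ^ (n * (n - 1) / 2) * (Real.log 2) ^ (n - 2) * Real.log (5 / 3)) := by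
  have h := asy_pow k n (by omega) hk (n - 2) (by omega)
  have e1 : n - 1 - (n - 2) = 1 := by omega
  have e2 : n - 2 + 1 = n - 1 := by omega
  rw [e1, e2] at h
  have hlog : 0 < Real.log 2 := Real.log_pos (by norm_num)
  have hlog9 : 0 < Real.log (5 / 3) := Real.log_pos (by norm_num)
  have hst := step5 k (n - 1) hk5 (by omega) (Real.log (5 / 3))
    (2 ^ (∑ j ∈ range (n - 2), (n - 1 - j)) * (Real.log 2) ^ (n - 2)) hlog9
    (by positivity) (fun u => 1 - u % 2) cost_fb (by simpa only [pow_one] using h)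
  have e3 : n - 1 + 1 = n := by omega
  rw [e3] at hst
  have hsum : n * (n - 1) / 2 = (∑ j ∈ range (n - 2), (n - 1 - j)) + 1 := by
    have h1 : ∑ j ∈ range (n - 1), (n - 1 - j) = (∑ j ∈ range (n - 2), (n - 1 - j)) + 1 := by
      rw [← e2, Finset.sum_range_succ]
      congr 1
      omega
    rw [← h1]
    have h2 : ∑ j ∈ range (n - 1), (n - 1 - j) = ∑ j ∈ range n, j := by
      have h3 := Finset.sum_range_reflect (fun j => j) n
      rw [← h3]
      have h4 : n = (n - 1) + 1 := by omega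
      conv_rhs => rw [h4, Finset.sum_range_succ]
      simp only [add_tsub_cancel_right, tsub_self, add_zero]
    rw [h2, Finset.sum_range_id]
  have e4 : 2 * Real.log (5 / 3) * (2 ^ (∑ j ∈ range (n - 2), (n - 1 - j)) *
      (Real.log 2) ^ (n - 2)) =
      2 ^ (n * (n - 1) / 2) * (Real.log 2) ^ (n - 2) * Real.log (5 / 3) := by
    rw [hsum, pow_succ]
    ring
  rw [e4] at hst
  exact hst

/-- from `Asy` to sets of natural numbers -/
theorem nat_of_asy (k s : ℕ) (G : ℝ) (h : Asy k 1 s G) (ε : ℝ) (hε : 0 < ε) :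
    ∃ N₀ : ℕ, ∀ N : ℕ, N₀ ≤ N →
    ∃ A : Finset ℕ, A ⊆ Finset.Icc 1 N ∧ (∀ a d : ℕ, 0 < d → ¬ ∀ j < k, a + j * d ∈ A) ∧
      (N : ℝ) * Real.exp (-((1 + ε) * s * (G * Real.log N) ^ ((1 : ℝ) / s))) ≤ A.card := by
  obtain ⟨N0, hN0⟩ := h ε hε
  refine ⟨N0, fun N hN => ?_⟩
  obtain ⟨A, hA, hAf, hAc⟩ := hN0 N hN
  refine ⟨A.image (fun a => a.toNat + 1), ?_, ?_, ?_⟩
  · intro x hx
    obtain ⟨a, ha, rfl⟩ := Finset.mem_image.1 hx
    have := Finset.mem_Ico.1 (hA ha)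
    rw [Finset.mem_Icc]
    omega
  · intro a d hd hcon
    have hP : (C ((d : ℚ)) * X + C ((a : ℚ) - 1)).natDegree = 1 :=
      natDegree_linear (by exact_mod_cast hd.ne')
    obtain ⟨j, hj, hne⟩ := hAf _ hP
    obtain ⟨b, hb, hb'⟩ := Finset.mem_image.1 (hcon j hj)
    apply hne b hb
    have h1 := Finset.mem_Ico.1 (hA hb)
    have h2 : b = (a : ℤ) + j * d - 1 := by
      have h3 : ((b.toNat + 1 : ℕ) : ℤ) = ((a + j * d : ℕ) : ℤ) := by rw [hb']
      push_cast at h3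
      rw [Int.toNat_of_nonneg h1.1] at h3
      linarith only [h3]
    rw [eval_add, eval_mul, eval_C, eval_C, eval_X, h2]
    push_cast
    ring
  · rw [Finset.card_image_of_injOn]
    · exact hAc
    · intro x hx y hy hxy
      have h1 := Finset.mem_Ico.1 (hA (Finset.mem_coe.1 hx))
      have h2 := Finset.mem_Ico.1 (hA (Finset.mem_coe.1 hy))
      have h3 : x.toNat + 1 = y.toNat + 1 := hxy
      omega

/-- the lower bound for every `k ≥ 5` -/
theorem lower_five (k : ℕ) (hk : 5 ≤ k) (ε : ℝ) (hε : 0 < ε) : ∃ N₀ : ℕ, ∀ N : ℕ, N₀ ≤ N →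
    ∃ A : Finset ℕ, A ⊆ Finset.Icc 1 N ∧ (∀ a d : ℕ, 0 < d → ¬ ∀ j < k, a + j * d ∈ A) ∧
      (N : ℝ) * Real.exp (-((1 + ε) * (Nat.clog 2 k) *
        ((2 ^ (Nat.clog 2 k * (Nat.clog 2 k - 1) / 2) * (Real.log 2) ^ (Nat.clog 2 k - 2) *
          Real.log (5 / 3)) * Real.log N) ^ ((1 : ℝ) / (Nat.clog 2 k)))) ≤ A.card := by
  have h1 : 2 ^ (Nat.clog 2 k - 1) < k := Nat.pow_pred_clog_lt_self (by norm_num) (by omega)
  have h2 : 3 ≤ Nat.clog 2 k := by
    by_contra hcon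
    push Not at hcon
    have h3 : k ≤ 2 ^ Nat.clog 2 k := Nat.le_pow_clog (by norm_num) k
    have h4 : 2 ^ Nat.clog 2 k ≤ 2 ^ 2 := Nat.pow_le_pow_right (by norm_num) (by omega)
    omega
  exact nat_of_asy k _ _ (asy_fb k _ h2 hk h1) ε hε

end Vale.Agent.P057.R2.H133
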