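import Vale.Agent.P057.H466.Fin

/-!
# P057 : first, second and last level with arbitrary cost constants
-/

set_option linter.all false

open Finset

namespace Vale.Agent.P057.R2.H133

open Vale.Agent.P057.Lower Vale.Agent.P057.H562 Vale.Agent.P057.H466

/-- improved first and second level -/
theorem first_gen (k n : ℕ) (hn : n = Nat.clog 2 k) (κ l : ℝ) (hk : 5 ≤ k) (h0 : 0 < κ)
    (hc : Cost k 1 κ) (h0' : 0 < l) (hc' : Cost k 2 l) (ε : ℝ) (hε : 0 < ε) :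
    ∃ N₀ : ℕ, ∀ N : ℕ, N₀ ≤ N →
      ∃ A : Finset ℕ, A ⊆ Finset.Icc 1 N ∧ (∀ a d : ℕ, 0 < d → ¬ ∀ j < k, a + j * d ∈ A) ∧
        (N : ℝ) * Real.exp (-((1 + ε) * n * ((2 ^ (n * (n - 1) / 2 - 1) *
          Real.log 2 ^ (n - 3) * κ * l) * Real.log N) ^ ((1 : ℝ) / n))) ≤ A.card := by
  subst hn
  have hpow : 2 ^ (Nat.clog 2 k - 1) < k := Nat.pow_pred_clog_lt_self (by norm_num) (by omega)
  have h := asy_two k (Nat.clog 2 k) (three_le_clog hk) hpow κ l h0 h0' hc hc' 1 one_pos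
    (base k _ Nat.one_le_two_pow hpow)
  rw [mul_one] at h
  exact to_sets k _ _ h ε hε

/-- improved first, second and last level -/
theorem last_gen (k n p m : ℕ) (hn : n = Nat.clog 2 k) (hp : p.Prime)
    (hp1 : 2 ^ (n - 1) + 2 ≤ p) (hp2 : p ≤ k) (hm : 3 ≤ m)
    (hkm : (m + 2) * 2 ^ (n - 1) < m * k) (κ l : ℝ) (hk : 5 ≤ k) (h0 : 0 < κ)
    (hc : Cost k 1 κ) (h0' : 0 < l) (hc' : Cost k 2 l)
    (ε : ℝ) (hε : 0 < ε) :
    ∃ N₀ : ℕ, ∀ N : ℕ, N₀ ≤ N →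
      ∃ A : Finset ℕ, A ⊆ Finset.Icc 1 N ∧ (∀ a d : ℕ, 0 < d → ¬ ∀ j < k, a + j * d ∈ A) ∧
        (N : ℝ) * Real.exp (-((1 + ε) * n * ((2 ^ (n * (n - 1) / 2 - 1) *
          Real.log 2 ^ (n - 3) * κ * l * (1 - 1 / (m : ℝ))) * Real.log N) ^
            ((1 : ℝ) / n))) ≤ A.card := by
  have hn3 : 3 ≤ n := by
    rw [hn]
    exact three_le_clog hk
  have hmR : (3 : ℝ) ≤ m := by exact_mod_cast hm
  have hm1 : 0 < 1 - 1 / (m : ℝ) := by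
    have : 1 / (m : ℝ) < 1 := by
      rw [div_lt_one (by linarith only [hmR])]
      linarith only [hmR]
    linarith only [this]
  have hpow : 2 ^ (n - 1) < k := by omega
  exact to_sets k n _ (asy_two k n hn3 hpow κ l h0 h0' hc hc' (1 - 1 / (m : ℝ)) hm1
    (asy_base k _ m p hm Nat.one_le_two_pow hkm hp hp1 hp2)) ε hε

/-- progressions of length a power of two -/
theorem power_gen (n : ℕ) (hn : 3 ≤ n) (κ l : ℝ) (h0 : 0 < κ)
    (hc : Cost (2 ^ n) 1 κ) (h0' : 0 < l) (hc' : Cost (2 ^ n) 2 l)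
    (ε : ℝ) (hε : 0 < ε) :
    ∃ N₀ : ℕ, ∀ N : ℕ, N₀ ≤ N →
      ∃ A : Finset ℕ, A ⊆ Finset.Icc 1 N ∧ (∀ a d : ℕ, 0 < d → ¬ ∀ j < 2 ^ n, a + j * d ∈ A) ∧
        (N : ℝ) * Real.exp (-((1 + ε) * n * ((2 ^ (n * (n - 1) / 2 - 1) *
          Real.log 2 ^ (n - 3) * κ * l * (2 / 3)) * Real.log N) ^ ((1 : ℝ) / n))) ≤ A.card := by
  obtain ⟨p, hp, hp1, hp2⟩ := prime_between n hn
  have h8 : 8 ≤ 2 ^ n := by
    calc 8 = 2 ^ 3 := by norm_num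
      _ ≤ 2 ^ n := Nat.pow_le_pow_right (by norm_num) hn
  have e1 : 2 ^ n = 2 * 2 ^ (n - 1) := by
    rw [← pow_succ']
    congr 1
    omega
  have h := last_gen (2 ^ n) n p 3 (Nat.clog_pow 2 n (by norm_num)).symm hp hp1 hp2
    le_rfl (by omega) κ l (by omega) h0 hc h0' hc' ε hε
  have e2 : (1 : ℝ) - 1 / ((3 : ℕ) : ℝ) = 2 / 3 := by norm_num
  rw [e2] at h
  exact h

end Vale.Agent.P057.R2.H133
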