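import Vale.Agent.P057.MathlibUsed

/-!
# P057 : a block of density `7/12` for progressions with at least five terms

The even numbers up to `p / 3` and the odd numbers up to `p / 4` in absolute value.  Congruential
progressions with five terms in this block are genuine, or they satisfy
`2 e u₂ - e u₀ - e u₄ > 0`, where `e` is the parity; for genuine ones this number is `0`.
-/

set_option linter.all false

open Finset

namespace Vale.Agent.P057.R2.H133

/-- a block with a certificate for five term progressions -/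
structure CBlk (p : ℕ) (U : Finset ℤ) (e : ℤ → ℤ) : Prop where
  inj : ∀ u ∈ U, ∀ v ∈ U, (p : ℤ) ∣ u - v → u = v
  e0 : ∀ u ∈ U, 0 ≤ e u
  e1 : ∀ u ∈ U, e u ≤ 1
  five : ∀ a ∈ U, ∀ b ∈ U, ∀ c ∈ U, ∀ d ∈ U, ∀ f ∈ U, (p : ℤ) ∣ a - 2 * b + c →
    (p : ℤ) ∣ b - 2 * c + d → (p : ℤ) ∣ c - 2 * d + f →
    0 ≤ 2 * e c - e a - e f ∧
      (2 * e c - e a - e f = 0 → a - 2 * b + c = 0 ∧ b - 2 * c + d = 0 ∧ c - 2 * d + f = 0)

/-- the mixed block: even numbers up to `p / 3`, odd numbers up to `p / 4` -/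
noncomputable def mix (p : ℕ) : Finset ℤ :=
  (Finset.Icc (-(p : ℤ)) p).filter
    (fun u => (u % 2 = 0 ∧ -(p : ℤ) < 3 * u ∧ 3 * u < p) ∨
      (u % 2 = 1 ∧ -(p : ℤ) < 4 * u ∧ 4 * u < p))

theorem mem_mix {p : ℕ} {u : ℤ} (hu : u ∈ mix p) :
    (u % 2 = 0 ∧ -(p : ℤ) < 3 * u ∧ 3 * u < p) ∨
      (u % 2 = 1 ∧ -(p : ℤ) < 4 * u ∧ 4 * u < p) :=
  (Finset.mem_filter.1 hu).2

theorem mix_abs {p : ℕ} {u : ℤ} (hu : u ∈ mix p) : |u| ≤ p := by
  have := Finset.mem_Icc.1 (Finset.mem_filter.1 hu).1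
  exact abs_le.2 this

theorem mix_inj {p : ℕ} (hp : 0 < p) {a b : ℤ} (ha : a ∈ mix p)
    (hb : b ∈ mix p) (h : (p : ℤ) ∣ a - b) : a = b := by
  have h1 := mem_mix ha
  have h2 := mem_mix hb
  have hlt : |a - b| < (p : ℤ) := by
    rw [abs_lt]
    constructor <;> omega
  have := Int.eq_zero_of_abs_lt_dvd h hlt
  omega

theorem mix_q {p : ℕ} (hp : p % 2 = 1) {a b c : ℤ} (ha : a ∈ mix p)
    (hb : b ∈ mix p) (hc : c ∈ mix p) (h : (p : ℤ) ∣ a - 2 * b + c) :
    a - 2 * b + c = 0 ∨ a - 2 * b + c = p ∨ a - 2 * b + c = -p := by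
  obtain ⟨q, hq⟩ := h
  have h1 := mem_mix ha
  have h2 := mem_mix hb
  have h3 := mem_mix hc
  have hp0 : 0 < (p : ℤ) := by omega
  have hlt : |a - 2 * b + c| < 2 * (p : ℤ) := by
    rw [abs_lt]
    constructor <;> omega
  rw [hq, abs_mul, abs_of_pos hp0] at hlt
  have hq2 : |q| < 2 := by
    by_contra hcon
    push Not at hcon
    nlinarith only [hlt, hcon]
  rw [abs_lt] at hq2
  have : q = 0 ∨ q = 1 ∨ q = -1 := by omega
  rcases this with rfl | rfl | rfl
  · left; rw [hq]; ring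
  · right; left; rw [hq]; ring
  · right; right; rw [hq]; ring

/-- membership, abstractly -/
def In (P u : ℤ) : Prop :=
  (u % 2 = 0 ∧ -P < 3 * u ∧ 3 * u < P) ∨ (u % 2 = 1 ∧ -P < 4 * u ∧ 4 * u < P)

theorem In.neg {P u : ℤ} (h : In P u) : In P (-u) := by
  unfold In at *
  omega

theorem five_pos_zero {P a b c d f : ℤ} (hP : P % 2 = 1) (h0 : 0 < P) (f1 : In P a) (f2 : In P b)
    (f3 : In P c) (f4 : In P d) (f5 : In P f) (e1 : a - 2 * b + c = P) (e2 : b - 2 * c + d = 0)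
    (e3 : c - 2 * d + f = 0 ∨ c - 2 * d + f = P ∨ c - 2 * d + f = -P) :
    0 < 2 * (c % 2) - a % 2 - f % 2 := by
  unfold In at *
  rcases e3 with e3 | e3 | e3 <;> omega

theorem five_pos_pos {P a b c d f : ℤ} (hP : P % 2 = 1) (h0 : 0 < P) (f1 : In P a) (f2 : In P b)
    (f3 : In P c) (f4 : In P d) (f5 : In P f) (e1 : a - 2 * b + c = P) (e2 : b - 2 * c + d = P)
    (e3 : c - 2 * d + f = 0 ∨ c - 2 * d + f = P ∨ c - 2 * d + f = -P) :
    0 < 2 * (c % 2) - a % 2 - f % 2 := by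
  unfold In at *
  rcases e3 with e3 | e3 | e3 <;> omega

theorem five_pos_neg {P a b c d f : ℤ} (hP : P % 2 = 1) (h0 : 0 < P) (f1 : In P a) (f2 : In P b)
    (f3 : In P c) (f4 : In P d) (f5 : In P f) (e1 : a - 2 * b + c = P) (e2 : b - 2 * c + d = -P)
    (e3 : c - 2 * d + f = 0 ∨ c - 2 * d + f = P ∨ c - 2 * d + f = -P) :
    0 < 2 * (c % 2) - a % 2 - f % 2 := by
  unfold In at *
  rcases e3 with e3 | e3 | e3 <;> omega

theorem five_mid {P a b c d f : ℤ} (hP : P % 2 = 1) (h0 : 0 < P) (f1 : In P a) (f2 : In P b)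
    (f3 : In P c) (f4 : In P d) (f5 : In P f) (e1 : a - 2 * b + c = 0) (e2 : b - 2 * c + d = P)
    (e3 : c - 2 * d + f = 0) :
    0 < 2 * (c % 2) - a % 2 - f % 2 := by
  unfold In at *
  omega

theorem five_pos {P a b c d f : ℤ} (hP : P % 2 = 1) (h0 : 0 < P) (f1 : In P a) (f2 : In P b)
    (f3 : In P c) (f4 : In P d) (f5 : In P f) (e1 : a - 2 * b + c = P)
    (e2 : b - 2 * c + d = 0 ∨ b - 2 * c + d = P ∨ b - 2 * c + d = -P)
    (e3 : c - 2 * d + f = 0 ∨ c - 2 * d + f = P ∨ c - 2 * d + f = -P) :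
    0 < 2 * (c % 2) - a % 2 - f % 2 := by
  rcases e2 with e2 | e2 | e2
  · exact five_pos_zero hP h0 f1 f2 f3 f4 f5 e1 e2 e3
  · exact five_pos_pos hP h0 f1 f2 f3 f4 f5 e1 e2 e3
  · exact five_pos_neg hP h0 f1 f2 f3 f4 f5 e1 e2 e3

theorem neg_goal {a c f : ℤ} (h : 0 < 2 * ((-c) % 2) - (-a) % 2 - (-f) % 2) :
    0 < 2 * (c % 2) - a % 2 - f % 2 := by
  omega

theorem five_neg {P a b c d f : ℤ} (hP : P % 2 = 1) (h0 : 0 < P) (f1 : In P a) (f2 : In P b)
    (f3 : In P c) (f4 : In P d) (f5 : In P f) (e1 : a - 2 * b + c = -P)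
    (e2 : b - 2 * c + d = 0 ∨ b - 2 * c + d = P ∨ b - 2 * c + d = -P)
    (e3 : c - 2 * d + f = 0 ∨ c - 2 * d + f = P ∨ c - 2 * d + f = -P) :
    0 < 2 * (c % 2) - a % 2 - f % 2 := by
  apply neg_goal
  exact five_pos hP h0 f1.neg f2.neg f3.neg f4.neg f5.neg (by omega) (by omega) (by omega)

/-- the certificate -/
theorem mix_five {p : ℕ} (hp : p % 2 = 1) {a b c d f : ℤ} (ha : a ∈ mix p) (hb : b ∈ mix p)
    (hc : c ∈ mix p) (hd : d ∈ mix p) (hf : f ∈ mix p) (h1 : (p : ℤ) ∣ a - 2 * b + c)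
    (h2 : (p : ℤ) ∣ b - 2 * c + d) (h3 : (p : ℤ) ∣ c - 2 * d + f) :
    (a - 2 * b + c = 0 ∧ b - 2 * c + d = 0 ∧ c - 2 * d + f = 0) ∨
      0 < 2 * (c % 2) - a % 2 - f % 2 := by
  have e1 := mix_q hp ha hb hc h1
  have e2 := mix_q hp hb hc hd h2
  have e3 := mix_q hp hc hd hf h3
  have f1 : In p a := mem_mix ha
  have f2 : In p b := mem_mix hb
  have f3 : In p c := mem_mix hc
  have f4 : In p d := mem_mix hd
  have f5 : In p f := mem_mix hf
  clear ha hb hc hd hf h1 h2 h3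
  have hP : (p : ℤ) % 2 = 1 := by omega
  have hp0 : 0 < (p : ℤ) := by omega
  rcases e1 with e1 | e1 | e1
  · rcases e3 with e3 | e3 | e3
    · rcases e2 with e2 | e2 | e2
      · left; exact ⟨e1, e2, e3⟩
      · right; exact five_mid hP hp0 f1 f2 f3 f4 f5 e1 e2 e3
      · right
        apply neg_goal
        exact five_mid hP hp0 f1.neg f2.neg f3.neg f4.neg f5.neg (by linarith) (by linarith)
          (by linarith)
    · right
      have := five_pos hP hp0 f5 f4 f3 f2 f1 (by linarith) (by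
        rcases e2 with e2 | e2 | e2
        · left; linarith
        · right; left; linarith
        · right; right; linarith) (by left; linarith)
      linarith
    · right
      have := five_neg hP hp0 f5 f4 f3 f2 f1 (by linarith) (by
        rcases e2 with e2 | e2 | e2
        · left; linarith
        · right; left; linarith
        · right; right; linarith) (by left; linarith)
      linarith
  · right; exact five_pos hP hp0 f1 f2 f3 f4 f5 e1 e2 e3
  · right; exact five_neg hP hp0 f1 f2 f3 f4 f5 e1 e2 e3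

theorem mix_blk {p : ℕ} (hp : p % 2 = 1) : CBlk p (mix p) (fun u => u % 2) := by
  refine ⟨fun u hu v hv h => mix_inj (by omega) hu hv h, fun u _ => Int.emod_nonneg _ (by norm_num),
    fun u _ => ?_, ?_⟩
  · have := Int.emod_lt_of_pos u (by norm_num : (0 : ℤ) < 2)
    show u % 2 ≤ 1
    omega
  · intro a ha b hb c hc d hd f hf h1 h2 h3
    show 0 ≤ 2 * (c % 2) - a % 2 - f % 2 ∧ (2 * (c % 2) - a % 2 - f % 2 = 0 → _)
    rcases mix_five hp ha hb hc hd hf h1 h2 h3 with h | h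
    · refine ⟨?_, fun _ => h⟩
      obtain ⟨k1, k2, k3⟩ := h
      have l1 : a % 2 = c % 2 := by omega
      have l2 : f % 2 = c % 2 := by omega
      rw [l1, l2]
      linarith
    · exact ⟨h.le, fun h0 => absurd h0 h.ne'⟩

theorem mix_card (p : ℕ) : (7 * p : ℝ) / 12 - 2 ≤ (mix p).card := by
  have hsub : (Finset.Icc (-((p - 1) / 6 : ℕ) : ℤ) ((p - 1) / 6 : ℕ)).image (fun v => 2 * v) ∪
      (Finset.Ico (-((p + 3) / 8 : ℕ) : ℤ) ((p + 3) / 8 : ℕ)).image (fun v => 2 * v + 1) ⊆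
      mix p ∪ (if p = 0 then {0} else ∅) := by
    intro u hu
    rcases Nat.eq_zero_or_pos p with rfl | hp0
    · simp only [Nat.zero_sub, Nat.zero_div, Nat.zero_add] at hu
      rw [Finset.mem_union]
      right
      simp at hu ⊢
      exact hu
    rw [if_neg (by omega), Finset.union_empty]
    unfold mix
    rw [Finset.mem_filter, Finset.mem_Icc]
    rw [Finset.mem_union, Finset.mem_image, Finset.mem_image] at hu
    rcases hu with ⟨v, hv, rfl⟩ | ⟨v, hv, rfl⟩
    · rw [Finset.mem_Icc] at hv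
      omega
    · rw [Finset.mem_Ico] at hv
      omega
  rcases Nat.eq_zero_or_pos p with rfl | hp0
  · have : (0 : ℝ) ≤ (mix 0).card := by (clear * -; positivity)
    simp only [Nat.cast_zero]
    linarith
  rw [if_neg (by omega), Finset.union_empty] at hsub
  have hdisj : Disjoint
      ((Finset.Icc (-((p - 1) / 6 : ℕ) : ℤ) ((p - 1) / 6 : ℕ)).image (fun v => 2 * v))
      ((Finset.Ico (-((p + 3) / 8 : ℕ) : ℤ) ((p + 3) / 8 : ℕ)).image (fun v => 2 * v + 1)) := by
    rw [Finset.disjoint_left]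
    intro u hu hu'
    obtain ⟨v, _, rfl⟩ := Finset.mem_image.1 hu
    obtain ⟨w, _, hw⟩ := Finset.mem_image.1 hu'
    omega
  have hcard := Finset.card_le_card hsub
  rw [Finset.card_union_of_disjoint hdisj,
    Finset.card_image_of_injective _ (fun a b h => by simpa only [mul_eq_mul_left_iff, OfNat.ofNat_ne_zero, or_false] using h),
    Finset.card_image_of_injective _ (fun a b h => by simpa only [add_left_inj, mul_eq_mul_left_iff, OfNat.ofNat_ne_zero, or_false] using h),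
    Int.card_Icc, Int.card_Ico] at hcard
  have h5 : 7 * p ≤ 12 * (mix p).card + 24 := by omega
  have h6 : (7 * p : ℝ) ≤ 12 * (mix p).card + 24 := by exact_mod_cast h5
  linarith only [h6]

end Vale.Agent.P057.R2.H133
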