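import Vale.Agent.P057.Bdl.B1
import Vale.Agent.P057.R2.H133.Mix

/-!
# P057 : one level of the construction with blocks which carry a certificate
-/

set_option linter.all false

open Finset Polynomial

namespace Vale.Agent.P057.R2.H133

open Vale.Agent.P057.Lower (Free pigeon exists_poly dvd_diff_sub diff_poly_succ diff_poly diff_two)

/-- two values of the combined weight in the same window have the same number of odd entries -/
theorem count_eq {L x x' c c' t b b' : ℤ} (hx0 : 0 ≤ x) (hx : x < L) (hx0' : 0 ≤ x') (hx' : x' < L)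
    (hb : 0 ≤ b) (hbL : b < L) (hb' : 0 ≤ b') (hbL' : b' < L)
    (h : x + 2 * L * c + t = b) (h' : x' + 2 * L * c' + t = b') : c = c' := by
  have h1 : 2 * L * (c - c') = (b - b') - (x - x') := by linarith
  have hL : 0 < L := by linarith
  have h2 : |2 * L * (c - c')| < 2 * L := by
    rw [h1, abs_lt]
    constructor <;> linarith
  rw [abs_mul, abs_of_pos (by linarith : 0 < 2 * L)] at h2
  have h3 : |c - c'| < 1 := by
    by_contra hcon
    push Not at hcon
    nlinarith
  have h4 := Int.abs_lt_one_iff.1 h3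
  omega

theorem level5 {ι : Type*} [Fintype ι] [DecidableEq ι] (k : ℕ) (hk : 5 ≤ k)
    (p : ι → ℕ) (hp : Pairwise (Function.onFun Nat.Coprime p)) (hp0 : ∀ i, 0 < p i)
    (U : ι → Finset ℤ) (e : ℤ → ℤ) (hU : ∀ i, CBlk (p i) (U i) e) (L : ℕ) (hL : 0 < L)
    (hF : ∀ v : ι → ℤ, (∀ i, v i ∈ U i) → ∑ i, (v i) ^ 2 < (L : ℤ))
    (B : Finset ℤ) (hB : B ⊆ Finset.Ico 0 (L : ℤ)) (hBf : Free k 2 B) (W : ℕ)
    (hW : 2 * W ≤ ∏ i, p i) :
    ∃ A : Finset ℤ, A ⊆ Finset.Ico 0 (W : ℤ) ∧ Free k 1 A ∧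
      (W : ℝ) * (∏ i, ((U i).card : ℝ) / p i) *
        ((B.card : ℝ) / (2 * (L * (2 * Fintype.card ι + 1) : ℕ))) ≤ A.card := by
  have hLZ : (0 : ℤ) < L := by exact_mod_cast hL
  have hB2 : B ⊆ Finset.Ico 0 ((L * (2 * Fintype.card ι + 1) : ℕ) : ℤ) := by
    intro x hx
    have h1 := Finset.mem_Ico.1 (hB hx)
    rw [Finset.mem_Ico]
    refine ⟨h1.1, lt_of_lt_of_le h1.2 ?_⟩
    push_cast
    have : (0 : ℤ) ≤ Fintype.card ι := by positivity
    nlinarith
  obtain ⟨s, t, A, hA, hprop, hcard⟩ := pigeon p hp hp0 U (fun i => (hU i).inj)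
    (fun v => ∑ i, (v i) ^ 2 + 2 * (L : ℤ) * ∑ i, e (v i)) (L * (2 * Fintype.card ι + 1))
    (by positivity)
    (fun v hv => by
      have h1 := hF v hv
      have h2 : 0 ≤ ∑ i, (v i) ^ 2 := Finset.sum_nonneg (fun i _ => sq_nonneg _)
      have h3 : 0 ≤ ∑ i, e (v i) := Finset.sum_nonneg (fun i _ => (hU i).e0 _ (hv i))
      have h4 : ∑ i, e (v i) ≤ Fintype.card ι := by
        calc ∑ i, e (v i) ≤ ∑ _i : ι, (1 : ℤ) := Finset.sum_le_sum (fun i _ => (hU i).e1 _ (hv i))
          _ = Fintype.card ι := by simp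
      have h5 : 2 * (L : ℤ) * ∑ i, e (v i) ≤ 2 * (L : ℤ) * Fintype.card ι :=
        mul_le_mul_of_nonneg_left h4 (by positivity)
      have h6 : 0 ≤ 2 * (L : ℤ) * ∑ i, e (v i) := mul_nonneg (by positivity) h3
      constructor
      · linarith
      · push_cast
        nlinarith) B hB2 W
  refine ⟨A, hA, ?_, by simpa only [] using hcard⟩
  intro P hP
  by_contra hcon
  push Not at hcon
  have hex : ∀ j : ℕ, ∃ a : ℤ, j < k → a ∈ A ∧ P.eval (j : ℚ) = (a : ℚ) := by
    intro j
    by_cases hj : j < k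
    · obtain ⟨a, ha, ha'⟩ := hcon j hj
      exact ⟨a, fun _ => ⟨ha, ha'⟩⟩
    · exact ⟨0, fun h => absurd h hj⟩
  choose a ha using hex
  have hex2 : ∀ j : ℕ, ∃ v : ι → ℤ, j < k → (∀ i, v i ∈ U i) ∧
      (∀ i, (p i : ℤ) ∣ (s + a j) - v i) ∧
      (∑ i, (v i) ^ 2 + 2 * (L : ℤ) * ∑ i, e (v i)) + t ∈ B := by
    intro j
    by_cases hj : j < k
    · obtain ⟨v, hv⟩ := hprop (a j) (ha j hj).1
      exact ⟨v, fun _ => hv⟩
    · exact ⟨0, fun h => absurd h hj⟩
  choose v hv using hex2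
  have hPs : ∀ j < k, (P + C (s : ℚ)).eval (j : ℚ) = ((s + a j : ℤ) : ℚ) := by
    intro j hj
    rw [eval_add, eval_C, (ha j hj).2]
    push_cast
    ring
  have hPsd : (P + C (s : ℚ)).natDegree ≤ 1 := by
    rw [natDegree_add_C, hP]
  -- the number of odd entries is constant
  have hcnt : ∀ j < k, ∑ i, e (v j i) = ∑ i, e (v 0 i) := by
    intro j hj
    have h1 := hv j hj
    have h0 := hv 0 (by omega)
    have b1 := Finset.mem_Ico.1 (hB h1.2.2)
    have b0 := Finset.mem_Ico.1 (hB h0.2.2)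
    exact count_eq (Finset.sum_nonneg (fun i _ => sq_nonneg _)) (hF _ h1.1)
      (Finset.sum_nonneg (fun i _ => sq_nonneg _)) (hF _ h0.1) b1.1 b1.2 b0.1 b0.2 rfl rfl
  have hdv : ∀ i j, j + 2 < k → (p i : ℤ) ∣ v j i - 2 * v (j + 1) i + v (j + 2) i := by
    intro i j hj
    have h1 := dvd_diff_sub (p i : ℤ) 2 (fun j => s + a j) (fun j => v j i) j
      (fun l hl hl' => (hv l (by omega)).2.1 i)
    have h2 : (fwdDiff 1)^[1 + 1] (fun j => s + a j) j = 0 :=
      diff_poly_succ (P + C (s : ℚ)) 1 k hPsd (fun j => s + a j) hPs j (by omega)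
    have h3 : (fwdDiff 1)^[1 + 1] (fun j => v j i) j =
        v j i - 2 * v (j + 1) i + v (j + 2) i := diff_two (fun j => v j i) j
    have h4 : (2 : ℕ) = 1 + 1 := rfl
    rw [h4, h2, h3, zero_sub] at h1
    exact (dvd_neg).1 h1
  have hwin : ∀ j, j + 4 < k → ∀ i,
      v j i - 2 * v (j + 1) i + v (j + 2) i = 0 ∧
      v (j + 1) i - 2 * v (j + 2) i + v (j + 3) i = 0 ∧
      v (j + 2) i - 2 * v (j + 3) i + v (j + 4) i = 0 := by
    intro j hj
    have h5 : ∀ i, 0 ≤ 2 * e (v (j + 2) i) - e (v j i) - e (v (j + 4) i) ∧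
        (2 * e (v (j + 2) i) - e (v j i) - e (v (j + 4) i) = 0 →
          v j i - 2 * v (j + 1) i + v (j + 2) i = 0 ∧
          v (j + 1) i - 2 * v (j + 2) i + v (j + 3) i = 0 ∧
          v (j + 2) i - 2 * v (j + 3) i + v (j + 4) i = 0) := fun i =>
      (hU i).five _ ((hv j (by omega)).1 i) _ ((hv (j + 1) (by omega)).1 i) _
        ((hv (j + 2) (by omega)).1 i) _ ((hv (j + 3) (by omega)).1 i) _
        ((hv (j + 4) (by omega)).1 i) (hdv i j (by omega)) (hdv i (j + 1) (by omega))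
        (hdv i (j + 2) (by omega))
    have hzero : ∑ i, (2 * e (v (j + 2) i) - e (v j i) - e (v (j + 4) i)) = 0 := by
      rw [Finset.sum_sub_distrib, Finset.sum_sub_distrib, ← Finset.mul_sum,
        hcnt (j + 2) (by omega), hcnt j (by omega), hcnt (j + 4) (by omega)]
      ring
    intro i
    exact (h5 i).2 ((Finset.sum_eq_zero_iff_of_nonneg (fun i _ => (h5 i).1)).1 hzero i
      (Finset.mem_univ i))
  have hgen : ∀ i j, j + 2 < k → v j i - 2 * v (j + 1) i + v (j + 2) i = 0 := by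
    intro i j hj
    rcases Nat.lt_or_ge (j + 4) k with h | h
    · exact (hwin j h i).1
    · rcases Nat.lt_or_ge (j + 3) k with h3 | h3
      · have := (hwin (j - 1) (by omega) i).2.1
        have e1 : j - 1 + 1 = j := by omega
        have e2 : j - 1 + 2 = j + 1 := by omega
        have e3 : j - 1 + 3 = j + 2 := by omega
        rw [e1, e2, e3] at this
        exact this
      · have := (hwin (j - 2) (by omega) i).2.2
        have e1 : j - 2 + 2 = j := by omega
        have e2 : j - 2 + 3 = j + 1 := by omega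
        have e3 : j - 2 + 4 = j + 2 := by omega
        rw [e1, e2, e3] at this
        exact this
  have hQ : ∀ i, ∃ Q : ℚ[X], Q.natDegree ≤ 1 ∧ ∀ j < k, Q.eval (j : ℚ) = (v j i : ℚ) := by
    intro i
    apply exists_poly (fun j => v j i) k 1
    intro j hj
    rw [diff_two]
    exact hgen i j hj
  choose Q hQd hQe using hQ
  by_cases hall : ∀ i, (Q i).coeff 1 = 0
  · have hdvd : ∀ i, (p i : ℤ) ∣ (fwdDiff 1)^[1] (fun j => s + a j) 0 := by
      intro i
      have h1 := dvd_diff_sub (p i : ℤ) 1 (fun j => s + a j) (fun j => v j i) 0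
        (fun l hl hl' => (hv l (by omega)).2.1 i)
      have h2 : (fwdDiff 1)^[1] (fun j => v j i) 0 = 0 := by
        have := diff_poly (Q i) 1 k (hQd i) (fun j => v j i) (hQe i) 0 (by omega)
        rw [hall i, zero_mul] at this
        exact_mod_cast this
      rw [h2, sub_zero] at h1
      exact h1
    have hcop : (∏ i, (p i : ℤ)) ∣ (fwdDiff 1)^[1] (fun j => s + a j) 0 := by
      apply Fintype.prod_dvd_of_coprime _ hdvd
      intro i j hij
      exact Nat.isCoprime_iff_coprime.2 (hp hij)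
    have e3 : (fwdDiff 1)^[1] (fun j => s + a j) 0 = a 1 - a 0 := by
      show (s + a (0 + 1)) - (s + a 0) = _
      ring
    rw [e3] at hcop
    have hlt : |a 1 - a 0| < ∏ i, (p i : ℤ) := by
      have h3 : ((2 * W : ℕ) : ℤ) ≤ ((∏ i, p i : ℕ) : ℤ) := by exact_mod_cast hW
      push_cast at h3
      have g0 := Finset.mem_Ico.1 (hA (ha 0 (by omega)).1)
      have g1 := Finset.mem_Ico.1 (hA (ha 1 (by omega)).1)
      rw [abs_lt]
      constructor <;> linarith only [h3, g0, g1]
    have h01 := Int.eq_zero_of_abs_lt_dvd hcop hlt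
    have e2 := diff_poly P 1 k hP.le a (fun j hj => (ha j hj).2) 0 (by omega)
    have hPD : P.coeff 1 ≠ 0 := by
      rw [← hP]
      exact leadingCoeff_ne_zero.2 (fun h => by rw [h, natDegree_zero] at hP; omega)
    have e3' : (fwdDiff 1)^[1] a 0 = a 1 - a 0 := rfl
    rw [e3', h01] at e2
    simp at e2
    exact hPD e2.symm
  · push Not at hall
    obtain ⟨i0, hi0⟩ := hall
    set t' : ℤ := 2 * (L : ℤ) * ∑ i, e (v 0 i) + t with ht'
    have hR : (∑ i, (Q i) ^ 2 + C (t' : ℚ)).natDegree = 2 := by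
      apply le_antisymm
      · rw [natDegree_add_C]
        refine natDegree_sum_le_of_forall_le _ _ (fun i _ => ?_)
        refine le_trans natDegree_pow_le ?_
        have := hQd i
        omega
      · apply le_natDegree_of_ne_zero
        rw [coeff_add, coeff_C, if_neg (by omega), add_zero, finsetSum_coeff]
        have : ∀ i, ((Q i) ^ 2).coeff (2 * 1) = ((Q i).coeff 1) ^ 2 := fun i =>
          coeff_pow_of_natDegree_le (hQd i)
        have h21 : (2 : ℕ) = 2 * 1 := rfl
        rw [h21]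
        simp only [this]
        have hpos : 0 < ∑ i, ((Q i).coeff 1) ^ 2 :=
          Finset.sum_pos' (fun i _ => sq_nonneg _) ⟨i0, Finset.mem_univ _, by positivity⟩
        exact hpos.ne'
    obtain ⟨j, hj, hjB⟩ := hBf _ hR
    apply hjB _ (hv j hj).2.2
    rw [eval_add, eval_C, eval_finsetSum, hcnt j hj, ht']
    push_cast
    have h6 : ∑ i, (Q i ^ 2).eval (j : ℚ) = ∑ i, ((v j i : ℚ)) ^ 2 := by
      apply Finset.sum_congr rfl
      intro i _
      rw [eval_pow, hQe i j hj]
    rw [h6]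
    ring

end Vale.Agent.P057.R2.H133
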