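import Vale.Agent.P057.H955.Two

/-!
# P057 : second level, eight classes, a faster check
-/

set_option linter.all false

open Finset

namespace Vale.Agent.P057.R2.H133

open Vale.Agent.P057.Lower Vale.Agent.P057.H955

open Vale.Agent.P057.H466 (U mem_U card_U Good total cnt)

/-- three earlier terms (at distances `x + 1 < y + 1 < z + 1`) and the coefficients -/
structure Tr where
  x : ℕ
  y : ℕ
  z : ℕ
  p : ℤ
  q : ℤ
  r : ℤ
  s : ℤ

def okTr (e : Tr) : Bool :=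
  decide (e.x < e.y) && decide (e.y < e.z) &&
  decide (e.p = ((e.y : ℤ) - e.x) * (e.z - e.x) * (e.z - e.y)) &&
  decide (e.q = ((e.z : ℤ) - e.x) * (e.z + 1) * (e.x + 1)) &&
  decide (e.r = ((e.z : ℤ) - e.y) * (e.z + 1) * (e.y + 1)) &&
  decide (e.s = ((e.y : ℤ) - e.x) * (e.y + 1) * (e.x + 1))

def gt : ℕ → List T4 → Option T4
  | _, [] => none
  | 0, a :: _ => some a
  | n + 1, _ :: l => gt n l

theorem gt_lst {P : ℤ → T4 → Prop} : ∀ (n : ℕ) (l : List T4) (i : ℤ) (T : T4), Lst P i l →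
    gt n l = some T → P (i - n) T := by
  intro n
  induction n with
  | zero =>
    intro l i T hl h
    cases l with
    | nil => simp [gt] at h
    | cons a l =>
      simp only [gt, Option.some.injEq] at h
      subst h
      simpa using hl.1
  | succ n ih =>
    intro l i T hl h
    cases l with
    | nil => simp [gt] at h
    | cons a l =>
      have := ih l (i - 1) T hl.2 h
      push_cast
      rwa [show i - ((n : ℤ) + 1) = i - 1 - n by ring]

def ke2 (m : ℤ) (e : Tr) (c b a d : T4) : Bool :=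
  decide ((e.p * d.M + e.q * b.M - e.r * c.M - e.s * a.M) * m ≤
    e.p * d.lo + e.q * b.lo - e.r * c.hi - e.s * a.hi) ||
  decide (e.p * d.hi + e.q * b.hi - e.r * c.lo - e.s * a.lo ≤
    (e.p * d.M + e.q * b.M - e.r * c.M - e.s * a.M) * m)

def ke (m : ℤ) (d : T4) (l : List T4) (e : Tr) : Bool :=
  match gt e.x l, gt e.y l, gt e.z l with
  | some c, some b, some a => ke2 m e c b a d
  | _, _, _ => false

theorem ke_false {A B C m p t : ℤ} (hp : 0 < p) {d : T4} (hd : Tm A B C m p t d)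
    (l : List T4) (hl : Lst (Tm A B C m p) (t - 1) l) (e : Tr) (he : okTr e = true) :
    ke m d l e = false := by
  unfold okTr at he
  simp only [Bool.and_eq_true, decide_eq_true_eq] at he
  obtain ⟨⟨⟨⟨⟨h1, h2⟩, h3⟩, h4⟩, h5⟩, h6⟩ := he
  unfold ke
  cases hc : gt e.x l with
  | none => rfl
  | some c =>
    cases hb : gt e.y l with
    | none => rfl
    | some b =>
      cases ha : gt e.z l with
      | none => rfl
      | some a =>
        have Hc := gt_lst e.x l (t - 1) c hl hc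
        have Hb := gt_lst e.y l (t - 1) b hl hb
        have Ha := gt_lst e.z l (t - 1) a hl ha
        rw [show t - 1 - (e.x : ℤ) = t - ((e.x : ℤ) + 1) by ring] at Hc
        rw [show t - 1 - (e.y : ℤ) = t - ((e.y : ℤ) + 1) by ring] at Hb
        rw [show t - 1 - (e.z : ℤ) = t - ((e.z : ℤ) + 1) by ring] at Ha
        have h := kd_false (x := (e.x : ℤ) + 1) (y := (e.y : ℤ) + 1) (z := (e.z : ℤ) + 1) hp
          (by positivity) (by linarith [(by exact_mod_cast h1 : (e.x : ℤ) < e.y)])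
          (by linarith [(by exact_mod_cast h2 : (e.y : ℤ) < e.z)]) hd Hc Hb Ha
        have g3 : e.p = ((e.y : ℤ) + 1 - (e.x + 1)) * ((e.z : ℤ) + 1 - (e.x + 1)) *
            ((e.z : ℤ) + 1 - (e.y + 1)) := by rw [h3]; ring
        have g4 : e.q = ((e.z : ℤ) + 1 - (e.x + 1)) * ((e.z : ℤ) + 1) * ((e.x : ℤ) + 1) := by
          rw [h4]; ring
        have g5 : e.r = ((e.z : ℤ) + 1 - (e.y + 1)) * ((e.z : ℤ) + 1) * ((e.y : ℤ) + 1) := by
          rw [h5]; ring
        have g6 : e.s = ((e.y : ℤ) + 1 - (e.x + 1)) * ((e.y : ℤ) + 1) * ((e.x : ℤ) + 1) := by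
          rw [h6]; ring
        unfold kd at h
        rw [← g3, ← g4, ← g5, ← g6] at h
        exact h

theorem any_false {A B C m p t : ℤ} (hp : 0 < p) {d : T4} (hd : Tm A B C m p t d)
    (l : List T4) (hl : Lst (Tm A B C m p) (t - 1) l) (trs : List Tr)
    (he : trs.all okTr = true) : trs.any (ke m d l) = false := by
  rw [List.any_eq_false]
  intro e hmem
  rw [List.all_eq_true] at he
  rw [ke_false hp hd l hl e (he e hmem)]
  simp

/-- evaluate an integer before it is used -/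
def fz {α : Type} (n : ℤ) (f : ℤ → α) : α :=
  match n with
  | Int.ofNat 0 => f (Int.ofNat 0)
  | Int.ofNat (a + 1) => f (Int.ofNat (a + 1))
  | Int.negSucc 0 => f (Int.negSucc 0)
  | Int.negSucc (a + 1) => f (Int.negSucc (a + 1))

theorem fz_eq {α : Type} (n : ℤ) (f : ℤ → α) : fz n f = f n := by
  rcases n with (_ | a) | (_ | a) <;> rfl

def sr (N m : ℤ) (wl : List ℤ) (iv : ℤ → List (ℤ × ℤ)) (trs : List Tr) :
    ℕ → List T4 → ℤ → ℤ → ℤ → ℤ → ℤ → ℤ → Bool → Bool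
  | 0, _, _, _, _, _, _, _, nz => !nz
  | n + 1, l, c1, c2, c3, M1, M2, M3, nz =>
    wl.all fun w => fz ((w + 3 * c1 - 3 * c2 + c3) % N) fun c =>
      fz (w + 3 * M1 - 3 * M2 + M3) fun M => (iv c).all fun I =>
        trs.any (ke m ⟨M, I.1, I.2⟩ l) ||
          sr N m wl iv trs n (⟨M, I.1, I.2⟩ :: l) c c1 c2 M M1 M2 (nz || !decide (w = 0))

def ck (N m : ℕ) (wl : List ℤ) (iv : ℤ → List (ℤ × ℤ)) (trs : List Tr) (K c0 : ℕ) : Bool :=
  (List.range N).all fun c1 => (List.range N).all fun c2 =>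
    (iv (c0 : ℤ)).all fun I0 => (iv (c1 : ℤ)).all fun I1 => (iv (c2 : ℤ)).all fun I2 =>
      sr N m wl iv trs (K - 3) [⟨0, I2.1, I2.2⟩, ⟨0, I1.1, I1.2⟩, ⟨0, I0.1, I0.2⟩]
        c2 c1 c0 0 0 0 false

theorem sr_sound {N m p A B C : ℤ} (hp : 0 < p) {wl : List ℤ} {trs : List Tr}
    (htr : trs.all okTr = true)
    {iv : ℤ → List (ℤ × ℤ)} (K : ℕ) (u M w cl : ℕ → ℤ)
    (hm : ∀ i, i < K → ∃ I ∈ iv (cl i), I.1 * p < m * u i ∧ m * u i < I.2 * p)
    (hcl : ∀ i, i + 3 < K →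
      (w i + 3 * cl (i + 2) - 3 * cl (i + 1) + cl i) % N = cl (i + 3))
    (hM3 : ∀ i, M (i + 3) = w i + 3 * M (i + 2) - 3 * M (i + 1) + M i)
    (hw : ∀ i, i + 3 < K → w i ∈ wl)
    (hQ : ∀ i : ℕ, i < K → 2 * (u i - p * M i) = 2 * A + 2 * B * i + C * (i * (i - 1))) :
    ∀ (n s : ℕ) (l : List T4) (nz : Bool), s + 3 + n = K →
      Lst (Tm A B C m p) ((s : ℤ) + 2) l →
      sr N m wl iv trs n l (cl (s + 2)) (cl (s + 1)) (cl s) (M (s + 2)) (M (s + 1)) (M s)
        nz = true → nz = false ∧ ∀ i, s ≤ i → i + 3 < K → w i = 0 := by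
  intro n
  induction n with
  | zero =>
    intro s l nz hs _ hd
    unfold sr at hd
    refine ⟨by simpa using hd, fun i hi hiK => by omega⟩
  | succ n ih =>
    intro s l nz hs hl hd
    unfold sr at hd
    rw [List.all_eq_true] at hd
    have h1 := hd (w s) (hw s (by omega))
    rw [fz_eq, fz_eq, hcl s (by omega), ← hM3 s] at h1
    rw [List.all_eq_true] at h1
    obtain ⟨I, hI, hI1, hI2⟩ := hm (s + 3) (by omega)
    have h2 := h1 I hI
    have hT : Tm A B C m p ((s : ℤ) + 3) ⟨M (s + 3), I.1, I.2⟩ := by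
      refine ⟨u (s + 3), hI1, hI2, ?_⟩
      have := hQ (s + 3) (by omega)
      push_cast at this
      exact this
    have hk := any_false hp hT l (by
      have e : (s : ℤ) + 3 - 1 = (s : ℤ) + 2 := by ring
      rw [e]
      exact hl) trs htr
    rw [hk, Bool.false_or] at h2
    have h3 := ih (s + 1) (⟨M (s + 3), I.1, I.2⟩ :: l) (nz || !decide (w s = 0)) (by omega) (by
      refine ⟨?_, ?_⟩
      · have e : (((s + 1 : ℕ) : ℤ) + 2) = (s : ℤ) + 3 := by push_cast; ring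
        rw [e]
        exact hT
      · have e : (((s + 1 : ℕ) : ℤ) + 2) - 1 = (s : ℤ) + 2 := by push_cast; ring
        rw [e]
        exact hl) h2
    obtain ⟨h4, h5⟩ := h3
    rw [Bool.or_eq_false_iff] at h4
    have hws : w s = 0 := by
      by_contra hne
      have := h4.2
      rw [decide_eq_false hne] at this
      simp at this
    refine ⟨h4.1, fun i hi hiK => ?_⟩
    rcases Nat.eq_or_lt_of_le hi with rfl | hlt
    · exact hws
    · exact h5 i hlt hiK

theorem long3 {N m : ℕ} {trs : List Tr} (htr : trs.all okTr = true) {iv : ℤ → List (ℤ × ℤ)} {K : ℕ} (hN : 0 < N) (hm0 : 0 < m) (hK : 3 ≤ K)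
    {W H : ℤ} {wl : List ℤ} (hHW : 4 * H ≤ (W + 1) * m) (hwl : ∀ v, -W ≤ v → v ≤ W → v ∈ wl)
    (hiv : ∀ r, ∀ I ∈ iv r, 0 ≤ I.1 ∧ I.2 ≤ H) (hchk : ∀ c0 < N, ck N m wl iv trs K c0 = true)
    {p : ℕ} (hp : 0 < p) {q : ℤ} (hq : q * p ≡ 1 [ZMOD (N : ℤ)]) {u : ℕ → ℤ}
    (hu : ∀ j < K, u j ∈ U N m (fun r => iv ((q * r) % N)) p)
    (hd : ∀ j, j + 3 < K → (p : ℤ) ∣ u (j + 3) - 3 * u (j + 2) + 3 * u (j + 1) - u j) :
    ∀ j, j + 3 < K → u (j + 3) - 3 * u (j + 2) + 3 * u (j + 1) - u j = 0 := by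
  have hpz : (0 : ℤ) < p := by exact_mod_cast hp
  have hNz : (0 : ℤ) < N := by exact_mod_cast hN
  have hmz : (0 : ℤ) < m := by exact_mod_cast hm0
  set cl : ℕ → ℤ := fun i => (q * u i) % N with hcl
  set w : ℕ → ℤ := fun i => (u (i + 3) - 3 * u (i + 2) + 3 * u (i + 1) - u i) / p with hwdef
  have hwp : ∀ i, i + 3 < K → u (i + 3) - 3 * u (i + 2) + 3 * u (i + 1) - u i = p * w i := by
    intro i hi
    exact (Int.mul_ediv_cancel' (hd i hi)).symm
  have hmem : ∀ i, i < K → ∃ I ∈ iv (cl i), I.1 * p < m * u i ∧ m * u i < I.2 * p := by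
    intro i hi
    obtain ⟨I, hI, hI'⟩ := (mem_U (hu i hi)).2.2
    refine ⟨I, ?_, hI'⟩
    have e : (q * (u i % N)) % (N : ℤ) = cl i :=
      Int.ModEq.mul_left q (Int.mod_modEq (u i) N)
    rw [← e]
    exact hI
  have hbd : ∀ i, i < K → 0 < m * u i ∧ m * u i < H * p := by
    intro i hi
    obtain ⟨I, hI, h1, h2⟩ := hmem i hi
    obtain ⟨h3, h4⟩ := hiv _ I hI
    have h5 : 0 ≤ I.1 * (p : ℤ) := mul_nonneg h3 hpz.le
    have h6 : I.2 * (p : ℤ) ≤ H * p := mul_le_mul_of_nonneg_right h4 hpz.le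
    exact ⟨by linarith only [h1, h5], by linarith only [h2, h6]⟩
  have hw : ∀ i, i + 3 < K → w i ∈ wl := by
    intro i hi
    have b0 := hbd i (by omega)
    have b1 := hbd (i + 1) (by omega)
    have b2 := hbd (i + 2) (by omega)
    have b3 := hbd (i + 3) hi
    have e := hwp i hi
    have e2 : (m : ℤ) * u (i + 3) - 3 * (m * u (i + 2)) + 3 * (m * u (i + 1)) - m * u i =
        (w i * m) * p := by
      linear_combination (m : ℤ) * e
    have hHW' : 4 * H * p ≤ ((W + 1) * m) * p := mul_le_mul_of_nonneg_right hHW hpz.le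
    have h1 : (w i * m) * p < ((W + 1) * m) * p := by
      linarith only [e2, b0.1, b1.2, b2.1, b3.2, hHW']
    have h2 : (-(W + 1) * m) * p < (w i * m) * p := by
      linarith only [e2, b0.2, b1.1, b2.2, b3.1, hHW']
    have h3 := lt_of_mul_lt_mul_right (lt_of_mul_lt_mul_right h1 hpz.le) hmz.le
    have h4 := lt_of_mul_lt_mul_right (lt_of_mul_lt_mul_right h2 hpz.le) hmz.le
    exact hwl _ (by omega) (by omega)
  have hrec : ∀ i, i + 3 < K →
      (w i + 3 * cl (i + 2) - 3 * cl (i + 1) + cl i) % N = cl (i + 3) := by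
    intro i hi
    have e : q * u (i + 3) = (q * p) * w i + 3 * (q * u (i + 2)) - 3 * (q * u (i + 1)) +
        q * u i := by
      linear_combination q * hwp i hi
    show _ = (q * u (i + 3)) % N
    rw [e]
    have e1 : w i + 3 * cl (i + 2) - 3 * cl (i + 1) + cl i =
        1 * w i + 3 * cl (i + 2) - 3 * cl (i + 1) + cl i := by ring
    rw [e1]
    exact (((hq.symm.mul_right _).add ((Int.mod_modEq _ _).mul_left _)).sub
      ((Int.mod_modEq _ _).mul_left _)).add (Int.mod_modEq _ _)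
  have hQ : ∀ i : ℕ, i < K → 2 * (u i - p * (tri w i).1) = 2 * u 0 + 2 * (u 1 - u 0) * i +
      (u 2 - 2 * u 1 + u 0) * (i * (i - 1)) := by
    intro i
    induction i using Nat.strong_induction_on with
    | _ i ih =>
      intro hi
      match i, ih, hi with
      | 0, _, _ => simp [tri]
      | 1, _, _ =>
        simp [tri]
        ring
      | 2, _, _ =>
        simp [tri]
        ring
      | i + 3, ih, hi =>
        have h0 := ih i (by omega) (by omega)
        have h1 := ih (i + 1) (by omega) (by omega)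
        have h2 := ih (i + 2) (by omega) (by omega)
        have e := hwp i hi
        rw [tri_rec]
        push_cast at h1 h2 ⊢
        linear_combination 2 * e + h0 - 3 * h1 + 3 * h2
  have hr : ∀ i, 0 ≤ cl i ∧ cl i < N := fun i =>
    ⟨Int.emod_nonneg _ hNz.ne', Int.emod_lt_of_pos _ hNz⟩
  have c0 := hchk (cl 0).toNat (by have := hr 0; omega)
  unfold ck at c0
  rw [List.all_eq_true] at c0
  have c1 := c0 (cl 1).toNat (List.mem_range.2 (by have := hr 1; omega))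
  rw [List.all_eq_true] at c1
  have c2 := c1 (cl 2).toNat (List.mem_range.2 (by have := hr 2; omega))
  rw [Int.toNat_of_nonneg (hr 0).1, Int.toNat_of_nonneg (hr 1).1,
    Int.toNat_of_nonneg (hr 2).1, List.all_eq_true] at c2
  obtain ⟨I0, hI0, a0, b0⟩ := hmem 0 (by omega)
  obtain ⟨I1, hI1, a1, b1⟩ := hmem 1 (by omega)
  obtain ⟨I2, hI2, a2, b2⟩ := hmem 2 (by omega)
  have c3 := c2 I0 hI0
  rw [List.all_eq_true] at c3
  have c4 := c3 I1 hI1
  rw [List.all_eq_true] at c4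
  have c5 := c4 I2 hI2
  have hfin := sr_sound (N := (N : ℤ)) (m := (m : ℤ)) (p := (p : ℤ)) (A := u 0)
    (B := u 1 - u 0) (C := u 2 - 2 * u 1 + u 0) hpz (wl := wl) (trs := trs) htr (iv := iv) K u
    (fun i => (tri w i).1) w cl hmem hrec (fun i => tri_rec w i) hw hQ (K - 3) 0
    [⟨0, I2.1, I2.2⟩, ⟨0, I1.1, I1.2⟩, ⟨0, I0.1, I0.2⟩] false (by omega) (by
      refine ⟨⟨u 2, a2, b2, ?_⟩, ⟨u 1, a1, b1, ?_⟩, ⟨u 0, a0, b0, ?_⟩, trivial⟩
      · push_cast; ring
      · push_cast; ring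
      · push_cast; ring) c5
  intro j hj
  rw [hwp j hj, hfin.2 j (by omega) hj, mul_zero]

theorem block2_of_ck {N m : ℕ} {trs : List Tr} (htr : trs.all okTr = true) {iv : ℤ → List (ℤ × ℤ)} {K : ℕ} (hN : 0 < N) (hm0 : 0 < m)
    (hK : 4 ≤ K) {W H : ℤ} {wl : List ℤ} (hHW : 4 * H ≤ (W + 1) * m)
    (hwl : ∀ v, -W ≤ v → v ≤ W → v ∈ wl)
    (hiv : ∀ r, ∀ I ∈ iv r, 0 ≤ I.1 ∧ I.2 ≤ H) (hchk : ∀ c0 < N, ck N m wl iv trs K c0 = true)
    {p : ℕ} (hp : 0 < p) {q : ℤ} (hq : q * p ≡ 1 [ZMOD (N : ℤ)]) (k : ℕ) (hk : K ≤ k) :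
    Block k 2 p (U N m (fun r => iv ((q * r) % N)) p) := by
  refine ⟨fun u hu v hv h => ?_, fun u hu hdvd j hj => ?_⟩
  · have a := mem_U hu
    have b := mem_U hv
    obtain ⟨t, ht⟩ := h
    have hpz : (0 : ℤ) < p := by exact_mod_cast hp
    have t1 : t < 1 := by
      by_contra hc
      have : (p : ℤ) * 1 ≤ p * t := mul_le_mul_of_nonneg_left (by omega) hpz.le
      omega
    have t2 : -1 < t := by
      by_contra hc
      have : (p : ℤ) * t ≤ p * (-1) := mul_le_mul_of_nonneg_left (by omega) hpz.le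
      omega
    have : t = 0 := by omega
    subst this
    omega
  · have hd : ∀ j, j + 3 < k → (p : ℤ) ∣ u (j + 3) - 3 * u (j + 2) + 3 * u (j + 1) - u j := by
      intro j hj
      have := hdvd j (by omega)
      rwa [diff_three] at this
    rw [diff_three]
    obtain ⟨s, hs1, hs2, hs3⟩ : ∃ s, s ≤ j ∧ j - s + 3 < K ∧ s + K ≤ k :=
      ⟨min j (k - K), by omega, by omega, by omega⟩
    have := long3 (u := fun i => u (s + i)) htr hN hm0 (by omega) hHW hwl hiv hchk hp hq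
      (fun i hi => hu (s + i) (by omega))
      (fun i hi => by
        have := hd (s + i) (by omega)
        simpa only [add_assoc] using this) (j - s) hs2
    have e1 : s + (j - s) = j := by omega
    have e2 : s + (j - s + 1) = j + 1 := by omega
    have e3 : s + (j - s + 2) = j + 2 := by omega
    have e4 : s + (j - s + 3) = j + 3 := by omega
    simpa only [e1, e2, e3, e4] using this

/-- the cost of the second level from a check modulo `8` -/
theorem cost2_of_ck8 {m : ℕ} {trs : List Tr} (htr : trs.all okTr = true) {iv : ℤ → List (ℤ × ℤ)} {K : ℕ} (hm0 : 0 < m)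
    (hK : 4 ≤ K) {W H : ℤ} {wl : List ℤ} (hHW : 4 * H ≤ (W + 1) * m)
    (hwl : ∀ v, -W ≤ v → v ≤ W → v ∈ wl)
    (hiv : ∀ r, ∀ I ∈ iv r, 0 ≤ I.1 ∧ I.2 ≤ H) (hchk : ∀ c0 < 8, ck 8 m wl iv trs K c0 = true) (T : ℤ)
    (hg : ∀ q : ℤ, q = 1 ∨ q = 3 ∨ q = 5 ∨ q = 7 →
      Good 8 m (fun r => iv ((q * r) % ((8 : ℕ) : ℤ))))
    (ht : ∀ q : ℤ, q = 1 ∨ q = 3 ∨ q = 5 ∨ q = 7 →
      total 8 (fun r => iv ((q * r) % ((8 : ℕ) : ℤ))) = T)
    (δ : ℝ) (hδ : 0 < δ) (hδ' : δ = (T : ℝ) / (m * 8)) (k : ℕ) (hk : K ≤ k) :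
    Cost k 2 (Real.log (1 / δ)) := by
  intro η hη
  have hlt : Real.exp (-η) < 1 := Real.exp_lt_one_iff.2 (by linarith only [hη])
  obtain ⟨c, hc⟩ : ∃ c : ℕ, ∀ q : ℤ, q = 1 ∨ q = 3 ∨ q = 5 ∨ q = 7 →
      cnt 8 (fun r => iv ((q * r) % ((8 : ℕ) : ℤ))) ≤ c := by
    refine ⟨cnt 8 (fun r => iv ((1 * r) % ((8 : ℕ) : ℤ))) +
      cnt 8 (fun r => iv ((3 * r) % ((8 : ℕ) : ℤ))) +
      cnt 8 (fun r => iv ((5 * r) % ((8 : ℕ) : ℤ))) +
      cnt 8 (fun r => iv ((7 * r) % ((8 : ℕ) : ℤ))), ?_⟩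
    intro q hq
    rcases hq with rfl | rfl | rfl | rfl <;> omega
  obtain ⟨m0, hm0'⟩ := eventually_div_le (3 * (c : ℝ)) (δ * (1 - Real.exp (-η)))
    (mul_pos hδ (by linarith only [hlt]))
  refine ⟨max m0 3, fun p hp hpp => ?_⟩
  have hp3 : 3 ≤ p := le_trans (le_max_right _ _) hp
  have hpm : m0 ≤ p := le_trans (le_max_left _ _) hp
  have hp0 : 0 < p := by omega
  have hodd : p % 2 = 1 := hpp.eq_two_or_odd.resolve_left (by omega)
  have hpR : (0 : ℝ) < p := by exact_mod_cast hp0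
  have h4 := hm0' p hpm
  rw [div_le_iff₀ hpR] at h4
  have h5 : Real.exp (-(Real.log (1 / δ) + η)) = δ * Real.exp (-η) := by
    rw [neg_add, Real.exp_add, Real.exp_neg (Real.log _), Real.exp_log (by positivity)]
    field_simp
  have h6 : (T : ℝ) * p / (m * (8 : ℕ)) = δ * p := by
    rw [hδ']
    push_cast
    ring
  obtain ⟨q, hq4, hq⟩ : ∃ q : ℤ, (q = 1 ∨ q = 3 ∨ q = 5 ∨ q = 7) ∧
      q * p ≡ 1 [ZMOD ((8 : ℕ) : ℤ)] := by
    rcases (by omega : p % 8 = 1 ∨ p % 8 = 3 ∨ p % 8 = 5 ∨ p % 8 = 7) with h | h | h | h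
    · refine ⟨1, by norm_num, ?_⟩
      show (1 * (p : ℤ)) % ((8 : ℕ) : ℤ) = 1 % ((8 : ℕ) : ℤ)
      omega
    · refine ⟨3, by norm_num, ?_⟩
      show (3 * (p : ℤ)) % ((8 : ℕ) : ℤ) = 1 % ((8 : ℕ) : ℤ)
      omega
    · refine ⟨5, by norm_num, ?_⟩
      show (5 * (p : ℤ)) % ((8 : ℕ) : ℤ) = 1 % ((8 : ℕ) : ℤ)
      omega
    · refine ⟨7, by norm_num, ?_⟩
      show (7 * (p : ℤ)) % ((8 : ℕ) : ℤ) = 1 % ((8 : ℕ) : ℤ)
      omega
  refine ⟨_, block2_of_ck htr (by norm_num) hm0 hK hHW hwl hiv hchk hp0 hq k hk,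
    fun u hu => ?_, ?_⟩
  · have := mem_U hu
    rw [abs_le]
    constructor <;> linarith
  · have h1 := card_U (by norm_num) hm0 (hg q hq4) p
    rw [ht q hq4, h6] at h1
    rw [h5, le_div_iff₀ hpR]
    have h7 : ((cnt 8 (fun r => iv ((q * r) % ((8 : ℕ) : ℤ))) : ℕ) : ℝ) ≤ c := by
      exact_mod_cast hc q hq4
    nlinarith only [h1, h4, h7]

end Vale.Agent.P057.R2.H133
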